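import Mathlib
import Vale.Agent.P367.Gap.Values

/-! QAOA for the maximum cut problem. -/

namespace Vale.Agent.N367

open Matrix Vale.Agent.P367.Gap

/-- The depth-`p` QAOA state of a cost operator `C`. -/
noncomputable def circuit {n : ℕ} (C : Matrix (Conf n) (Conf n) ℂ) :
    (p : ℕ) → (Fin p → ℝ) → (Fin p → ℝ) → (Conf n → ℂ)
  | 0, _, _ => plusState n
  | p + 1, γ, β =>
      NormedSpace.exp ((-(Complex.I * (β (Fin.last p) : ℂ))) • mixer n) *ᵥ
        (NormedSpace.exp ((-(Complex.I * (γ (Fin.last p) : ℂ))) • C) *ᵥ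
          circuit C p (fun k => γ k.castSucc) (fun k => β k.castSucc))

open Classical in
/-- The cut operator: the sum of `(1 - Z_i Z_j)/2` over the edges `ij` of `G`. -/
noncomputable def cutOp {n : ℕ} (G : SimpleGraph (Fin n)) : Matrix (Conf n) (Conf n) ℂ :=
  ∑ e : Pair n, if G.Adj e.1.1 e.1.2 then (1 / 2 : ℂ) • (1 - pauliZ e.1.1 * pauliZ e.1.2) else 0

/-- The expected size of the cut found by QAOA. -/
noncomputable def cutMean {n : ℕ} (G : SimpleGraph (Fin n)) (p : ℕ) (γ β : Fin p → ℝ) : ℝ :=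
  (star (circuit (cutOp G) p γ β) ⬝ᵥ (cutOp G *ᵥ circuit (cutOp G) p γ β)).re

/-- The largest number of edges whose ends get different bits. -/
noncomputable def maxCut {n : ℕ} (G : SimpleGraph (Fin n)) : ℕ :=
  Finset.univ.sup fun z : Conf n => {e : Pair n | G.Adj e.1.1 e.1.2 ∧ z e.1.1 ≠ z e.1.2}.ncard

end Vale.Agent.N367
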