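import Vale.Agent.N367.Sparse

/-! QAOA and the maximum cut on sparse binomial random graphs. -/

namespace Vale.Agent.N367

open Finset MeasureTheory ProbabilityTheory Filter Topology Vale.Agent.P367.Gap
open Vale.Agent.P367.Lim Vale.Agent.P367.H84.U unitInterval

variable {n : ℕ}

theorem msc (n : ℕ) : MeasurableSingletonClass (SimpleGraph (Fin n)) := ⟨fun G => by
  have : ({G} : Set (SimpleGraph (Fin n))) = SimpleGraph.edgeSet ⁻¹' {G.edgeSet} := by
    ext H
    simp
  rw [this]
  exact SimpleGraph.measurable_edgeSet (measurableSet_singleton _)⟩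

theorem int_graph (q : I) (F : SimpleGraph (Fin n) → ℝ) :
    Integrable F (SimpleGraph.binomialRandom (Fin n) q) := by
  have := msc n
  exact Integrable.of_finite

open Classical in
/-- adjacency bits -/
noncomputable def bits (G : SimpleGraph (Fin n)) (e : Pair n) : Bool := decide (G.Adj e.1.1 e.1.2)

theorem bits_inj : Function.Injective (bits : SimpleGraph (Fin n) → Pair n → Bool) := by
  intro G H h
  have h1 : ∀ i j : Fin n, i < j → (G.Adj i j ↔ H.Adj i j) := by
    intro i j hij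
    have := congrFun h ⟨(i, j), hij⟩
    simpa [bits] using this
  ext i j
  rcases lt_trichotomy i j with h2 | h2 | h2
  · exact h1 i j h2
  · subst h2
    simp
  · rw [G.adj_comm, H.adj_comm]
    exact h1 j i h2

theorem bits_surj : Function.Surjective (bits : SimpleGraph (Fin n) → Pair n → Bool) := by
  intro x
  refine ⟨SimpleGraph.fromRel fun i j => ∃ h : i < j, x ⟨(i, j), h⟩ = true, ?_⟩
  funext e
  have h1 := e.2
  have h2 : ¬ e.1.2 < e.1.1 := not_lt.2 h1.le
  have h3 : (⟨(e.1.1, e.1.2), h1⟩ : Pair n) = e := rfl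
  unfold bits
  simp only [SimpleGraph.fromRel_adj, h1, h2, exists_const, h3, IsEmpty.exists_iff, or_false,
    ne_eq, h1.ne, not_false_eq_true, true_and, Bool.decide_eq_true]

theorem map_bits (q : I) : (SimpleGraph.binomialRandom (Fin n) q).map bits
    = Measure.pi fun _ : Pair n => bernoulliMeasure true false q := by
  classical
  have := msc n
  refine Measure.ext_of_singleton fun x => ?_
  obtain ⟨G, rfl⟩ := bits_surj x
  have h1 : bits ⁻¹' {bits G} = {G} := by
    ext H
    simp [bits_inj.eq_iff]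
  rw [Measure.map_apply (measurable_of_finite _) (measurableSet_singleton _), h1,
    SimpleGraph.binomialRandom_singleton, Measure.pi_singleton]
  have h2 : ∀ e : Pair n, bernoulliMeasure true false q {bits G e}
      = if G.Adj e.1.1 e.1.2 then (toNNReal q : ENNReal) else (toNNReal (σ q) : ENNReal) := by
    intro e
    unfold bits
    by_cases h : G.Adj e.1.1 e.1.2 <;> simp [h]
  have h3 : (univ.filter fun e : Pair n => G.Adj e.1.1 e.1.2).card = G.edgeSet.ncard := by
    have h4 := nE_eq G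
    unfold nE ind at h4
    rw [card_filter]
    have h5 : ((∑ e : Pair n, if G.Adj e.1.1 e.1.2 then 1 else 0 : ℕ) : ℝ) = G.edgeSet.ncard := by
      rw [← h4]
      push_cast
      rfl
    exact_mod_cast h5
  have h6 : Fintype.card (Pair n) = (Nat.card (Fin n)).choose 2 := by
    have h7 : ((Fintype.card (Pair n) : ℕ) : ℝ) = (((Nat.card (Fin n)).choose 2 : ℕ) : ℝ) := by
      rw [Vale.Agent.P367.NI.card_pair, Nat.cast_choose_two, Nat.card_eq_fintype_card, Fintype.card_fin]
    exact_mod_cast h7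
  have h8 := card_filter_add_card_filter_not (s := (univ : Finset (Pair n)))
    (fun e : Pair n => G.Adj e.1.1 e.1.2)
  rw [card_univ, h6, h3] at h8
  simp_rw [h2]
  rw [prod_ite, prod_const, prod_const, h3]
  congr 2
  omega

/-- averages over the random graph as averages over independent couplings -/
theorem bridge (q : I) (a b : ℝ) {Φ : (Pair n → ℝ) → ℝ} (hΦ : Measurable Φ) :
    ∫ J, Φ J ∂(Measure.pi fun _ : Pair n => bernoulliMeasure a b q)
      = ∫ G, Φ (fun e => b + (a - b) * ind G e) ∂(SimpleGraph.binomialRandom (Fin n) q) := by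
  classical
  have := msc n
  have h1 : bernoulliMeasure a b q
      = (bernoulliMeasure true false q).map fun x : Bool => if x then a else b := by
    rw [map_bernoulliMeasure]
    simp
  have h2 : (Measure.pi fun _ : Pair n => bernoulliMeasure a b q)
      = (Measure.pi fun _ : Pair n => bernoulliMeasure true false q).map
        fun x e => if x e then a else b := by
    rw [Measure.pi_map_pi (f := fun (_ : Pair n) (x : Bool) => if x then a else b)
      fun _ => (measurable_of_finite _).aemeasurable, ← h1]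
  rw [h2, ← map_bits, Measure.map_map (measurable_of_finite _) (measurable_of_finite _),
    integral_map (measurable_of_finite _).aemeasurable hΦ.aestronglyMeasurable]
  refine integral_congr_ae (Eventually.of_forall fun G => ?_)
  simp only [Function.comp]
  congr 1
  funext e
  unfold bits ind
  by_cases h : G.Adj e.1.1 e.1.2 <;> simp [h]

theorem mean_nE (q : I) : ∫ G, nE G ∂(SimpleGraph.binomialRandom (Fin n) q)
    = n * (n - 1) / 2 * q := by
  have h := bridge (n := n) q 1 0 (Φ := fun J => ∑ e, J e) (by fun_prop)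
  simp only [zero_add, sub_zero, one_mul] at h
  unfold nE
  rw [← h, integral_finsetSum _ fun e _ =>
    integrable_eval_pi _ (integrable_bernoulliMeasure _ _ _ _) e]
  simp_rw [integral_eval, integral_bernoulliMeasure]
  rw [sum_const, card_univ, nsmul_eq_mul, Vale.Agent.P367.NI.card_pair]
  simp

theorem er_cut (p : ℕ) (γ β : Fin p → ℝ) {d θ : ℝ} (hθ : θ ≠ 0) (q : ℕ → I)
    (hq : Tendsto (fun n : ℕ => (n : ℝ) * q n) atTop (𝓝 d)) :
    Tendsto (fun n : ℕ => (n : ℝ)⁻¹ * ∫ G, cutMean G p (fun k => 2 * θ * γ k) β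
      ∂(SimpleGraph.binomialRandom (Fin n) (q n))) atTop
      (𝓝 (d / 4 + d * θ / 2 * (-(corr (poi d) θ (extA γ) (extA β) p).re / (2 * θ)))) := by
  have hqc : Tendsto (fun n : ℕ => (n : ℂ) * ((q n : ℝ) : ℂ)) atTop (𝓝 d) := by
    refine ((Complex.continuous_ofReal.tendsto _).comp hq).congr fun n => ?_
    simp
  have hex : ∀ N : ℕ, 0 < N → ∀ r : ℝ, Complex.exp (-(Complex.I *
      (((Real.sqrt N)⁻¹ * r * (-(Real.sqrt N * θ)) : ℝ) : ℂ))) = ek θ r := by
    intro N hN r
    have : Real.sqrt N ≠ 0 := by positivity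
    unfold ek
    rw [← mul_neg, ← Complex.ofReal_neg]
    congr 3
    field_simp
  have h1 := energy_sparse (d := d) (θ := θ) p γ β
    (ν := fun N => bernoulliMeasure (-(Real.sqrt N * θ)) 0 (q N))
    ⟨fun N => inferInstance, fun r => by
      refine (hqc.mul_const (ek θ r - 1)).congr' ?_
      filter_upwards [eventually_gt_atTop 0] with N hN
      unfold cw
      rw [integral_bernoulliMeasure, hex N hN]
      simp only [mul_zero, Complex.ofReal_zero, neg_zero, Complex.exp_zero, Complex.real_smul]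
      push_cast
      ring⟩ (fun N => integrable_bernoulliMeasure _ _ _ _) (fun r => by
      have h2 := hqc.mul_const (-(θ : ℂ) * ek θ r)
      refine (h2.congr' ?_).trans (le_of_eq ?_)
      · filter_upwards [eventually_gt_atTop 0] with N hN
        unfold dw
        rw [integral_bernoulliMeasure, hex N hN]
        have : ((Real.sqrt N : ℝ) : ℂ) ≠ 0 := by
          have : Real.sqrt N ≠ 0 := by positivity
          exact_mod_cast this
        simp only [Complex.ofReal_zero, zero_mul, smul_zero, add_zero, Complex.real_smul]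
        push_cast
        field_simp
      · congr 1
        ring)
  have h3 : Tendsto (fun n : ℕ => (n : ℝ) * q n / 4 - (n : ℝ)⁻¹ * ((n : ℝ) * q n) / 4) atTop
      (𝓝 (d / 4 - 0 * d / 4)) :=
    (hq.div_const 4).sub ((tendsto_inv_atTop_nhds_zero_nat.mul hq).div_const 4)
  have h4 := h3.add (h1.div_const (2 * θ))
  refine (h4.congr' ?_).trans (le_of_eq ?_)
  · filter_upwards [eventually_gt_atTop 0] with N hN
    have hN' : (N : ℝ) ≠ 0 := by positivity
    simp_rw [cutMean_coup _ hθ]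
    rw [integral_add (int_graph _ _) (int_graph _ _), integral_div, integral_div, mean_nE,
      bridge _ _ _ (Vale.Agent.P367.H84.V.meas_mean p γ β)]
    simp only [zero_add, sub_zero]
    unfold coup
    field_simp
    ring
  · congr 1
    field_simp
    ring

/-- **QAOA on sparse random graphs.** -/
theorem er_qaoa (p : ℕ) (γ β : Fin p → ℝ) {η : ℝ} (hη : 0 < η) :
    ∀ᶠ d : ℝ in atTop, ∀ q : ℕ → I, Tendsto (fun n : ℕ => (n : ℝ) * q n) atTop (𝓝 d) →
      ∀ᶠ n : ℕ in atTop, |∫ G, cutMean G p (fun k => 2 * γ k / Real.sqrt d) β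
        ∂(SimpleGraph.binomialRandom (Fin n) (q n))
        - n * (d / 4 + vLim p γ β * Real.sqrt d / 2)| ≤ η * n * Real.sqrt d := by
  have h := tendsto_corr_poisson (extA γ) (extA β) p
  rw [← vLim_eq] at h
  filter_upwards [Metric.tendsto_nhds.1 h η hη, eventually_gt_atTop 0] with d h1 hd q hq
  have hs : 0 < Real.sqrt d := Real.sqrt_pos.2 hd
  have h2 := er_cut p γ β (θ := (Real.sqrt d)⁻¹) (by positivity) q hq
  have e : (fun k => 2 * γ k / Real.sqrt d) = fun k => 2 * (Real.sqrt d)⁻¹ * γ k := by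
    funext k
    ring
  have e2 : d * (Real.sqrt d)⁻¹ = Real.sqrt d := by
    field_simp
    rw [Real.sq_sqrt hd.le]
  rw [e2] at h2
  change dist (-(corr (poi d) (Real.sqrt d)⁻¹ (extA γ) (extA β) p).re / (2 * (Real.sqrt d)⁻¹))
    _ < η at h1
  generalize -(corr (poi d) (Real.sqrt d)⁻¹ (extA γ) (extA β) p).re / (2 * (Real.sqrt d)⁻¹) = c
    at h1 h2
  filter_upwards [Metric.tendsto_nhds.1 h2 (η * Real.sqrt d / 2) (by positivity),
    eventually_gt_atTop 0] with N h3 hN
  have hN' : (0 : ℝ) < N := by exact_mod_cast hN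
  rw [e]
  generalize ∫ G, cutMean G p (fun k => 2 * (Real.sqrt d)⁻¹ * γ k) β
    ∂(SimpleGraph.binomialRandom (Fin N) (q N)) = X at h3
  rw [Real.dist_eq] at h1 h3
  have e3 : X - N * (d / 4 + vLim p γ β * Real.sqrt d / 2)
      = N * (((N : ℝ)⁻¹ * X - (d / 4 + Real.sqrt d / 2 * c))
        + Real.sqrt d / 2 * (c - vLim p γ β)) := by
    field_simp
    ring
  rw [e3, abs_mul, abs_of_pos hN']
  have h4 : |Real.sqrt d / 2 * (c - vLim p γ β)| ≤ η * Real.sqrt d / 2 := by
    rw [abs_mul, abs_of_pos (by positivity : 0 < Real.sqrt d / 2)]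
    nlinarith
  have h5 := abs_add_le ((N : ℝ)⁻¹ * X - (d / 4 + Real.sqrt d / 2 * c))
    (Real.sqrt d / 2 * (c - vLim p γ β))
  calc (N : ℝ) * _ ≤ N * (η * Real.sqrt d) := mul_le_mul_of_nonneg_left (by linarith) hN'.le
    _ = _ := by ring

theorem sum_ch (z : Conf n) : -(n / 2 : ℝ) ≤ ∑ e : Pair n, spin (z e.1.1) * spin (z e.1.2) := by
  have h := sum_sym (n := n) (fun i j => spin (z i) * spin (z j)) fun i j => mul_comm _ _
  have h1 : ∀ i j : Fin n, (if i = j then 0 else spin (z i) * spin (z j))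
      = spin (z i) * spin (z j) - if i = j then 1 else 0 := by
    intro i j
    split_ifs with hij
    · subst hij
      cases z i <;> simp [spin]
    · simp
  simp_rw [h1, sum_sub_distrib, ← mul_sum, ← sum_mul, sum_ite_eq, mem_univ, if_true] at h
  rw [sum_const, card_univ, Fintype.card_fin, nsmul_eq_mul, mul_one] at h
  nlinarith [mul_self_nonneg (∑ i, spin (z i))]

theorem maxCut_le (G : SimpleGraph (Fin n)) (hn : 0 < n) {q t : ℝ} (hq : 0 ≤ q) (ht : 0 < t) :
    (maxCut G : ℝ) ≤ nE G / 2 + q * n / 4 + t * Real.sqrt n / 2 *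
      ⨆ s : Conf n, skEnergy (fun e => q / t + ((q - 1) / t - q / t) * ind G e) s := by
  obtain ⟨z, hz⟩ := exists_maxCut G
  have hs : 0 < Real.sqrt n := by positivity
  have h1 := le_ciSup (bdd (fun e => q / t + ((q - 1) / t - q / t) * ind G e)) z
  have h2 : cutR G z = nE G / 2 - q / 2 * ∑ e : Pair n, spin (z e.1.1) * spin (z e.1.2)
      + t * Real.sqrt n / 2 * skEnergy (fun e => q / t + ((q - 1) / t - q / t) * ind G e) z := by
    unfold cutR nE skEnergy
    rw [sum_div, mul_sum, mul_sum, mul_sum, ← sum_sub_distrib, ← sum_add_distrib]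
    refine sum_congr rfl fun e _ => ?_
    field_simp
    ring
  have h3 := sum_ch z
  rw [← hz, h2]
  have h4 := mul_le_mul_of_nonneg_left h1 (by positivity : 0 ≤ t * Real.sqrt n / 2)
  nlinarith

theorem mom_ber (q : I) {t : ℝ} (ht : 0 < t) (h : t ^ 2 = q * (1 - q)) :
    Mom (bernoulliMeasure (((q : ℝ) - 1) / t) ((q : ℝ) / t) q) := by
  refine ⟨integrable_bernoulliMeasure _ _ _ _, integrable_bernoulliMeasure _ _ _ _, ?_, ?_⟩
  · rw [integral_bernoulliMeasure]
    simp only [smul_eq_mul]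
    field_simp
    ring
  · rw [integral_bernoulliMeasure]
    simp only [smul_eq_mul]
    field_simp
    rw [h]
    ring

theorem rem_ber (q : I) {t : ℝ} (ht : 0 < t) (h : t ^ 2 = q * (1 - q)) {a : ℝ} (ha : 0 ≤ a) :
    rem (bernoulliMeasure (((q : ℝ) - 1) / t) ((q : ℝ) / t) q) a ≤ a / t := by
  have h1 := (mom_ber q ht h).e2
  have h0 := q.2.1
  have h2 := q.2.2
  unfold rem
  rw [integral_bernoulliMeasure] at h1 ⊢
  simp only [smul_eq_mul] at h1 ⊢
  have h3 : min |a * (((q : ℝ) - 1) / t)| 1 ≤ a / t := by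
    refine (min_le_left _ _).trans ?_
    rw [abs_mul, abs_of_nonneg ha, abs_div, abs_of_pos ht, abs_sub_comm,
      abs_of_nonneg (by linarith), div_eq_mul_one_div a]
    gcongr
    linarith
  have h4 : min |a * ((q : ℝ) / t)| 1 ≤ a / t := by
    refine (min_le_left _ _).trans ?_
    rw [abs_mul, abs_of_nonneg ha, abs_div, abs_of_pos ht, abs_of_nonneg h0, div_eq_mul_one_div a]
    gcongr
  have h5 : 0 ≤ 1 - (q : ℝ) := by linarith
  calc _ ≤ (q : ℝ) * ((((q : ℝ) - 1) / t) ^ 2 * (a / t))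
        + (1 - (q : ℝ)) * (((q : ℝ) / t) ^ 2 * (a / t)) := by gcongr
    _ = ((q : ℝ) * (((q : ℝ) - 1) / t) ^ 2 + (1 - (q : ℝ)) * ((q : ℝ) / t) ^ 2) * (a / t) := by
        ring
    _ = a / t := by rw [h1, one_mul]

theorem mean_maxCut_le (hn : 0 < n) (q : I) {t b : ℝ} (ht : 0 < t) (h : t ^ 2 = q * (1 - q))
    (hb : 0 < b) :
    (n : ℝ)⁻¹ * ∫ G, (maxCut G : ℝ) ∂(SimpleGraph.binomialRandom (Fin n) q)
      ≤ n * q / 4 + t * Real.sqrt n / 2 * (groundValue n + b⁻¹ * Real.log 2
        + b * rem (gaussianReal 0 1) (b * (Real.sqrt n)⁻¹)) + b ^ 2 := by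
  have hn' : (0 : ℝ) < n := by exact_mod_cast hn
  have hs : 0 < Real.sqrt n := by positivity
  have h1 : ∫ G, (maxCut G : ℝ) ∂(SimpleGraph.binomialRandom (Fin n) q)
      ≤ ∫ G, (nE G / 2 + q * n / 4 + t * Real.sqrt n / 2 *
        ⨆ s : Conf n, skEnergy (fun e => q / t + ((q - 1) / t - q / t) * ind G e) s)
        ∂(SimpleGraph.binomialRandom (Fin n) q) :=
    integral_mono (int_graph _ _) (int_graph _ _) fun G => maxCut_le G hn q.2.1 ht
  rw [integral_add (int_graph _ _) (int_graph _ _), integral_add (int_graph _ _) (int_graph _ _),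
    integral_div, mean_nE, integral_const_mul, ← bridge _ _ _ measurable_sup] at h1
  simp only [integral_const, probReal_univ, smul_eq_mul, one_mul] at h1
  have h2 := (abs_le.1 (compare (n := n) _ (gaussianReal 0 1) (mom_ber q ht h) mom_gauss hb)).2
  have h3 := rem_ber q ht h (a := b * (Real.sqrt n)⁻¹) (by positivity)
  have h4 := rem_nonneg (gaussianReal 0 1) (b * (Real.sqrt n)⁻¹)
  have h5 := rem_nonneg (bernoulliMeasure (((q : ℝ) - 1) / t) ((q : ℝ) / t) q)
    (b * (Real.sqrt n)⁻¹)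
  have hg : ∫ x, (⨆ s : Conf n, skEnergy x s) ∂(Measure.pi fun _ : Pair n => gaussianReal 0 1)
      = n * groundValue n := by
    unfold groundValue couplingLaw
    field_simp
  rw [hg, Vale.Agent.P367.NI.card_pair, inv_pow, Real.sq_sqrt hn'.le] at h2
  generalize rem (gaussianReal 0 1) (b * (Real.sqrt n)⁻¹) = R at *
  generalize rem (bernoulliMeasure (((q : ℝ) - 1) / t) ((q : ℝ) / t) q) (b * (Real.sqrt n)⁻¹) = R'
    at *
  generalize ∫ x, (⨆ s : Conf n, skEnergy x s) ∂(Measure.pi fun _ : Pair n =>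
    bernoulliMeasure (((q : ℝ) - 1) / t) ((q : ℝ) / t) q) = S at *
  have h6 : (n : ℝ) * (n - 1) / 2 * (2 * b * (n : ℝ)⁻¹ * (R' + R)) ≤ n * (b * (R' + R)) := by
    have : (n : ℝ) * (n - 1) / 2 * (2 * b * (n : ℝ)⁻¹ * (R' + R)) = (n - 1) * (b * (R' + R)) := by
      field_simp
    rw [this]
    exact mul_le_mul_of_nonneg_right (by linarith) (by positivity)
  have h7 : S ≤ n * (groundValue n + b⁻¹ * Real.log 2 + b * R + b * (b * (Real.sqrt n)⁻¹ / t)) := by
    have := mul_le_mul_of_nonneg_left h3 (by positivity : 0 ≤ (n : ℝ) * b)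
    nlinarith
  rw [inv_mul_le_iff₀ hn']
  refine h1.trans ?_
  have h8 := mul_le_mul_of_nonneg_left h7 (by positivity : 0 ≤ t * Real.sqrt n / 2)
  have h9 : t * Real.sqrt n / 2 * (n * (groundValue n + b⁻¹ * Real.log 2 + b * R
      + b * (b * (Real.sqrt n)⁻¹ / t))) = n * (t * Real.sqrt n / 2 *
        (groundValue n + b⁻¹ * Real.log 2 + b * R) + b ^ 2 / 2) := by
    field_simp
  rw [h9] at h8
  have h10 : 0 ≤ (n : ℝ) * b ^ 2 := by positivity
  nlinarith

theorem er_upper (hP : Tendsto groundValue atTop (𝓝 Pstar)) {η : ℝ} (hη : 0 < η) :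
    ∀ᶠ d : ℝ in atTop, ∀ q : ℕ → I, Tendsto (fun n : ℕ => (n : ℝ) * q n) atTop (𝓝 d) →
      ∀ᶠ n : ℕ in atTop, ∫ G, (maxCut G : ℝ) ∂(SimpleGraph.binomialRandom (Fin n) (q n))
        ≤ n * (d / 4 + Pstar * Real.sqrt d / 2) + η * n * Real.sqrt d := by
  have hl : 0 < Real.log 2 := Real.log_pos (by norm_num)
  obtain ⟨b, hb, hb1⟩ : ∃ b : ℝ, 0 < b ∧ b⁻¹ * Real.log 2 = η :=
    ⟨Real.log 2 / η, by positivity, by field_simp⟩
  filter_upwards [(Real.tendsto_sqrt_atTop.atTop_mul_const (half_pos hη)).eventually_gt_atTop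
    (b ^ 2), eventually_gt_atTop 0] with d h1 hd q hq
  have hq0 : Tendsto (fun n : ℕ => (q n : ℝ)) atTop (𝓝 0) := by
    have h2 := tendsto_inv_atTop_nhds_zero_nat.mul hq
    rw [zero_mul] at h2
    refine h2.congr' ?_
    filter_upwards [eventually_gt_atTop 0] with n hn
    have : (n : ℝ) ≠ 0 := by positivity
    field_simp
  have ht : Tendsto (fun n : ℕ => Real.sqrt (q n * (1 - q n)) * Real.sqrt n) atTop
      (𝓝 (Real.sqrt d)) := by
    have h2 := (hq.mul (tendsto_const_nhds (x := (1 : ℝ)).sub hq0)).sqrt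
    rw [sub_zero, mul_one] at h2
    refine h2.congr fun n => ?_
    rw [← Real.sqrt_mul' _ (Nat.cast_nonneg n)]
    congr 1
    ring
  have hr : Tendsto (fun n : ℕ => rem (gaussianReal 0 1) (b * (Real.sqrt n)⁻¹)) atTop (𝓝 0) := by
    refine tendsto_rem _ mom_gauss.i2 ?_
    have := (tendsto_inv_atTop_zero.comp
      (Real.tendsto_sqrt_atTop.comp tendsto_natCast_atTop_atTop)).const_mul b
    simpa using this
  have h3 := ((hq.div_const 4).add ((ht.div_const 2).mul ((hP.add_const (b⁻¹ * Real.log 2)).add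
    (hr.const_mul b)))).add_const (b ^ 2)
  have h4 : d / 4 + Real.sqrt d / 2 * (Pstar + b⁻¹ * Real.log 2 + b * 0) + b ^ 2
      < d / 4 + Pstar * Real.sqrt d / 2 + η * Real.sqrt d := by
    rw [hb1]
    linarith
  filter_upwards [h3.eventually_lt_const h4, eventually_gt_atTop 0,
    ht.eventually_const_lt (Real.sqrt_pos.2 hd)] with n h5 hn h6
  have hn' : (0 : ℝ) < n := by exact_mod_cast hn
  have h7 : 0 < Real.sqrt (q n * (1 - q n)) :=
    (Real.sqrt_nonneg _).lt_of_ne fun h => by simp [← h] at h6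
  have h8 := (mean_maxCut_le hn (q n) h7
    (Real.sq_sqrt (mul_nonneg (q n).2.1 (sub_nonneg.2 (q n).2.2))) hb).trans h5.le
  rw [inv_mul_le_iff₀ hn'] at h8
  linarith

theorem exists_angles (hQ : Tendsto Qsup atTop (𝓝 Pstar)) {ε : ℝ} (hε : 0 < ε) :
    ∃ p : ℕ, 1 ≤ p ∧ ∃ γ β : Fin p → ℝ, Pstar - ε ≤ vLim p γ β := by
  obtain ⟨p, hp, h1⟩ := ((hQ.eventually (lt_mem_nhds (show Pstar - ε < Pstar by linarith))).and
    (eventually_ge_atTop 1)).exists
  obtain ⟨a, ha⟩ := exists_lt_of_lt_ciSup (show Pstar - ε < Qsup p from hp)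
  exact ⟨p, h1, a.1, a.2, ha.le⟩

theorem mean_cut_le (q : I) (p : ℕ) (γ β : Fin p → ℝ) :
    ∫ G, cutMean G p γ β ∂(SimpleGraph.binomialRandom (Fin n) q)
      ≤ ∫ G, (maxCut G : ℝ) ∂(SimpleGraph.binomialRandom (Fin n) q) :=
  integral_mono (int_graph _ _) (int_graph _ _) fun G => cutMean_le G p γ β

/-- **The maximum cut of sparse random graphs.** -/
theorem er_max (hP : Tendsto groundValue atTop (𝓝 Pstar)) (hQ : Tendsto Qsup atTop (𝓝 Pstar))
    {η : ℝ} (hη : 0 < η) :
    ∀ᶠ d : ℝ in atTop, ∀ q : ℕ → I, Tendsto (fun n : ℕ => (n : ℝ) * q n) atTop (𝓝 d) →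
      ∀ᶠ n : ℕ in atTop, |∫ G, (maxCut G : ℝ) ∂(SimpleGraph.binomialRandom (Fin n) (q n))
        - n * (d / 4 + Pstar * Real.sqrt d / 2)| ≤ η * n * Real.sqrt d := by
  obtain ⟨p, -, γ, β, h⟩ := exists_angles hQ hη
  filter_upwards [er_upper hP hη, er_qaoa p γ β (half_pos hη)] with d h1 h2 q hq
  filter_upwards [h1 q hq, h2 q hq] with n h3 h4
  have h5 := mean_cut_le (n := n) (q n) p (fun k => 2 * γ k / Real.sqrt d) β
  have h6 := mul_le_mul_of_nonneg_right h
    (by positivity : (0 : ℝ) ≤ n * Real.sqrt d / 2)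
  rw [abs_le] at h4 ⊢
  constructor <;> nlinarith [h4.1]

/-- **One circuit of constant depth.** -/
theorem one_circuit (hP : Tendsto groundValue atTop (𝓝 Pstar))
    (hQ : Tendsto Qsup atTop (𝓝 Pstar)) {ε : ℝ} (hε : 0 < ε) :
    ∃ (p : ℕ) (γ β : Fin p → ℝ),
      (∀ᶠ D : ℕ in atTop, ∀ (n : ℕ) (G : SimpleGraph (Fin n)) [DecidableRel G.Adj],
        G.IsRegularOfDegree D → ((2 * p + 1 : ℕ) : ℕ∞) < G.egirth →
        G.edgeSet.ncard * (1 / 2 + (Pstar - ε) / Real.sqrt D)
          ≤ cutMean G p (fun k => 2 * γ k / Real.sqrt D) β) ∧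
      ∀ᶠ d : ℝ in atTop, ∀ q : ℕ → I, Tendsto (fun n : ℕ => (n : ℝ) * q n) atTop (𝓝 d) →
        ∀ᶠ n : ℕ in atTop,
          ∫ G, (maxCut G : ℝ) ∂(SimpleGraph.binomialRandom (Fin n) (q n)) - ε * n * Real.sqrt d
            ≤ ∫ G, cutMean G p (fun k => 2 * γ k / Real.sqrt d) β
              ∂(SimpleGraph.binomialRandom (Fin n) (q n)) := by
  obtain ⟨p, -, γ, β, h⟩ := exists_angles hQ (half_pos hε)
  refine ⟨p, γ, β, ?_, ?_⟩
  · filter_upwards [regular p γ β (half_pos hε)] with D hD n G _ h1 h2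
    have h3 := (abs_le.1 (hD n G h1 h2)).1
    have h4 : (Pstar - ε) / Real.sqrt D ≤ vLim p γ β / Real.sqrt D - ε / 2 / Real.sqrt D := by
      rw [← sub_div]
      exact div_le_div_of_nonneg_right (by linarith) (Real.sqrt_nonneg _)
    have h5 := mul_le_mul_of_nonneg_left h4 (Nat.cast_nonneg (α := ℝ) G.edgeSet.ncard)
    linarith
  · have h4 : 0 < ε / 4 := by positivity
    filter_upwards [er_upper hP h4, er_qaoa p γ β h4] with d h1 h2 q hq
    filter_upwards [h1 q hq, h2 q hq] with n h3 h5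
    have h6 := mul_le_mul_of_nonneg_right h (by positivity : (0 : ℝ) ≤ n * Real.sqrt d / 2)
    have h7 : (0 : ℝ) ≤ ε * n * Real.sqrt d := by positivity
    nlinarith [(abs_le.1 h5).1]

end Vale.Agent.N367
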