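import Mathlib

/-! Regular graphs of every degree and arbitrarily large girth exist. -/

namespace Vale.Agent.N367

/-- reduced words of bounded length -/
abbrev Wd (D g : ℕ) : Type := {w : List (Fin D) // w.IsChain (· ≠ ·) ∧ w.length ≤ g}

variable {D g : ℕ}

theorem finite_Wd (D g : ℕ) : Finite (Wd D g) :=
  ((List.finite_length_le (Fin D) g).subset fun _ h => h.2 :
    Set.Finite {w : List (Fin D) | w.IsChain (· ≠ ·) ∧ w.length ≤ g})

/-- the move along an edge of colour `c` -/
def stp (c : Fin D) (w : Wd D g) : Wd D g :=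
  if w.1.head? = some c then ⟨w.1.tail, w.2.1.tail, by
    have := w.2.2
    rw [List.length_tail]
    omega⟩
  else if h : w.1.head? ≠ some c ∧ w.1.length < g then ⟨c :: w.1, by
    rw [List.isChain_cons]
    exact ⟨fun y hy hc => h.1 (by rw [hc]; exact hy), w.2.1⟩, h.2⟩
  else w

theorem stp_tail {c : Fin D} {w : Wd D g} (h : w.1.head? = some c) : (stp c w).1 = w.1.tail := by
  unfold stp
  rw [if_pos h]

theorem stp_cons {c : Fin D} {w : Wd D g} (h : w.1.head? ≠ some c) (h' : w.1.length < g) :
    (stp c w).1 = c :: w.1 := by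
  unfold stp
  rw [if_neg h, dif_pos ⟨h, h'⟩]

theorem stp_inv (c : Fin D) : Function.Involutive (stp c : Wd D g → Wd D g) := by
  intro w
  by_cases h : w.1.head? = some c
  · obtain ⟨t, ht⟩ := List.head?_eq_some_iff.1 h
    have h1 : (stp c w).1 = t := by rw [stp_tail h, ht, List.tail_cons]
    have h2 := w.2
    rw [ht, List.isChain_cons, List.length_cons] at h2
    refine Subtype.ext ?_
    rw [stp_cons, h1, ht]
    · rw [h1]
      exact fun hc => h2.1.1 c hc rfl
    · rw [h1]
      omega
  · by_cases h' : w.1.length < g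
    · have h1 := stp_cons h h'
      refine Subtype.ext ?_
      rw [stp_tail (by rw [h1]; rfl), h1, List.tail_cons]
    · have h1 : stp c w = w := by
        unfold stp
        rw [if_neg h, dif_neg fun h2 => h' h2.2]
      rw [h1, h1]

/-- the move as a permutation -/
def sg (c : Fin D) : Equiv.Perm (Wd D g) := (stp_inv c).toPerm

theorem sg_sq (c : Fin D) : (sg c : Equiv.Perm (Wd D g)) * sg c = 1 :=
  Equiv.ext fun w => stp_inv c w

/-- the empty word -/
def w0 (D g : ℕ) : Wd D g := ⟨[], List.isChain_nil, Nat.zero_le _⟩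

theorem sg_w0 (hg : 0 < g) (c : Fin D) : ((sg c : Equiv.Perm (Wd D g)) (w0 D g)).1 = [c] :=
  stp_cons (w := w0 D g) (by simp [w0]) hg

/-- the Cayley graph -/
def cay (hg : 0 < g) {V : Type} (e : V ≃ Equiv.Perm (Wd D g)) : SimpleGraph V where
  Adj i j := ∃ c, e j = sg c * e i
  symm := ⟨fun i j ⟨c, h⟩ => ⟨c, by rw [h, ← mul_assoc, sg_sq, one_mul]⟩⟩
  loopless := ⟨fun i ⟨c, h⟩ => by
    have h1 := sg_w0 hg c
    have h2 : sg c = 1 := mul_right_cancel (h.symm.trans (one_mul _).symm)
    rw [h2] at h1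
    simp [w0] at h1⟩

theorem cay_walk (hg : 0 < g) {V : Type} (e : V ≃ Equiv.Perm (Wd D g)) {u v : V}
    (p : (cay hg e).Walk u v) (hp : p.IsTrail) (hl : p.length ≤ g) :
    ((e u * (e v)⁻¹) (w0 D g)).1.length = p.length ∧
      ∀ c, ((e u * (e v)⁻¹) (w0 D g)).1.head? = some c → s(u, e.symm (sg c * e u)) ∈ p.edges := by
  induction p with
  | nil => simp [w0]
  | @cons u u' v h p ih =>
    obtain ⟨c, hc⟩ := id h
    have hc' : e u = sg c * e u' := by rw [hc, ← mul_assoc, sg_sq, one_mul]
    rw [SimpleGraph.Walk.isTrail_cons] at hp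
    rw [SimpleGraph.Walk.length_cons] at hl
    obtain ⟨h1, h2⟩ := ih hp.1 (by omega)
    have h3 : ((e u * (e v)⁻¹) (w0 D g)).1 = c :: ((e u' * (e v)⁻¹) (w0 D g)).1 := by
      rw [hc', mul_assoc, Equiv.Perm.mul_apply]
      refine stp_cons (fun h4 => hp.2 ?_) (by omega)
      have h5 := h2 c h4
      rwa [← hc', Equiv.symm_apply_apply, Sym2.eq_swap] at h5
    rw [h3]
    refine ⟨by rw [List.length_cons, h1, SimpleGraph.Walk.length_cons], fun c' h4 => ?_⟩
    obtain rfl : c = c' := by simpa using h4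
    rw [← hc, Equiv.symm_apply_apply, SimpleGraph.Walk.edges_cons]
    exact List.mem_cons_self

theorem exists_regular (D g : ℕ) : ∃ (n : ℕ) (G : SimpleGraph (Fin n)) (_ : DecidableRel G.Adj),
    0 < n ∧ G.IsRegularOfDegree D ∧ (g : ℕ∞) < G.egirth := by
  classical
  have := finite_Wd D (g + 1)
  have hg : 0 < g + 1 := Nat.succ_pos g
  let e := (Finite.equivFin (Equiv.Perm (Wd D (g + 1)))).symm
  refine ⟨_, cay hg e, inferInstance, Nat.card_pos, fun i => ?_, ?_⟩
  · have h : (cay hg e).neighborFinset i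
        = Finset.univ.image fun c : Fin D => e.symm (sg c * e i) := by
      ext j
      simp only [SimpleGraph.mem_neighborFinset, Finset.mem_image, Finset.mem_univ, true_and,
        Equiv.symm_apply_eq]
      exact ⟨fun ⟨c, h⟩ => ⟨c, h.symm⟩, fun ⟨c, h⟩ => ⟨c, h.symm⟩⟩
    rw [← SimpleGraph.card_neighborFinset_eq_degree, h, Finset.card_image_of_injective,
      Finset.card_univ, Fintype.card_fin]
    intro c c' hc
    have h1 := sg_w0 hg c
    rw [mul_right_cancel (e.symm.injective hc), sg_w0 hg] at h1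
    simpa using h1.symm
  · have h : ((g + 1 : ℕ) : ℕ∞) ≤ (cay hg e).egirth := by
      rw [SimpleGraph.le_egirth]
      intro a w hw
      by_contra h1
      have h2 : w.length < g + 1 := by exact_mod_cast not_le.1 h1
      have h3 := (cay_walk hg e w hw.isTrail h2.le).1
      have h4 := hw.three_le_length
      rw [mul_inv_cancel] at h3
      simp only [Equiv.Perm.one_apply, w0, List.length_nil] at h3
      omega
    exact lt_of_lt_of_le (by exact_mod_cast Nat.lt_succ_self g) h

end Vale.Agent.N367
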