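import Mathlib

/-! Neighbourhoods of an edge in a regular graph of large girth. -/

namespace Vale.Agent.N367

open Finset SimpleGraph

variable {V : Type} [Fintype V] [DecidableEq V]

/-- Seen from `T`, inside `W`, the graph looks to depth `m` like a forest with `d` children at
each vertex. -/
def Good (H : SimpleGraph V) [DecidableRel H.Adj] (d : ℕ) : ℕ → Finset V → Finset V → Prop
  | 0, _, _ => True
  | m + 1, W, T => T ⊆ W ∧ (∀ t ∈ T, ∀ t' ∈ T, ¬ H.Adj t t') ∧
      (∀ t ∈ T, (W.filter fun u => H.Adj t u).card = d) ∧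
      (∀ t ∈ T, ∀ t' ∈ T, ∀ u ∈ W, H.Adj t u → H.Adj t' u → t = t') ∧
      Good H d m (W \ T) (W.filter fun u => ∃ t ∈ T, H.Adj t u)

omit [Fintype V] in
theorem no_walk {G : SimpleGraph V} {L : ℕ} (hg : (L : ℕ∞) < G.egirth) {t u : V} (h : G.Adj u t)
    (w : G.Walk t u) (he : s(u, t) ∉ w.edges) (hl : w.length + 1 ≤ L) : False := by
  have hc : (Walk.cons h w.bypass).IsCycle :=
    (Walk.cons_isCycle_iff _ h).2 ⟨w.bypass_isPath, fun h' => he (w.edges_bypass_subset_edges h')⟩
  have h1 : G.egirth ≤ (Walk.cons h w.bypass).length := le_egirth.1 le_rfl _ _ hc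
  have h2 := w.length_bypass_le_length
  have h3 : ((Walk.cons h w.bypass).length : ℕ∞) ≤ L := by
    rw [Walk.length_cons]
    exact_mod_cast (by omega : w.bypass.length + 1 ≤ L)
  exact absurd (hg.trans_le (h1.trans h3)) (lt_irrefl _)

section

variable (G : SimpleGraph V) (a b : V)

/-- the graph without the edge `ab` -/
def cutE : SimpleGraph V := G.deleteEdges {s(a, b)}

omit [Fintype V] [DecidableEq V] in
theorem cutE_adj (i j : V) : (cutE G a b).Adj i j ↔ G.Adj i j ∧ s(i, j) ≠ s(a, b) := by
  simp [cutE]

omit [Fintype V] [DecidableEq V] in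
theorem cutE_le : cutE G a b ≤ G := fun _ _ h => ((cutE_adj G a b _ _).1 h).1

/-- at distance less than `k` from `a` or `b` -/
def Near (k : ℕ) (v : V) : Prop :=
  ∃ r, (r = a ∨ r = b) ∧ ∃ w : (cutE G a b).Walk r v, w.length < k

variable {G a b}

omit [Fintype V] [DecidableEq V] in
theorem Near.mono {k l : ℕ} {v : V} (h : Near G a b k v) (hkl : k ≤ l) : Near G a b l v := by
  obtain ⟨r, hr, w, hw⟩ := h
  exact ⟨r, hr, w, by omega⟩

omit [Fintype V] [DecidableEq V] in
theorem Near.step {k : ℕ} {v u : V} (h : Near G a b k v) (hu : (cutE G a b).Adj v u) :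
    Near G a b (k + 1) u := by
  obtain ⟨r, hr, w, hw⟩ := h
  exact ⟨r, hr, w.concat hu, by rw [Walk.length_concat]; omega⟩

omit [Fintype V] [DecidableEq V] in
theorem not_near_zero (v : V) : ¬ Near G a b 0 v := by
  rintro ⟨r, -, w, hw⟩
  omega

omit [Fintype V] [DecidableEq V] in
theorem near_one (v : V) : Near G a b 1 v ↔ v = a ∨ v = b := by
  constructor
  · rintro ⟨r, hr, w, hw⟩
    have : r = v := Walk.eq_of_length_eq_zero (p := w) (by omega)
    rwa [← this]
  · intro h
    exact ⟨v, h, Walk.nil, by simp⟩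

omit [Fintype V] [DecidableEq V] in
theorem Near.pred {k : ℕ} {u : V} (h : Near G a b (k + 2) u) (h' : ¬ Near G a b (k + 1) u) :
    ∃ t, Near G a b (k + 1) t ∧ (cutE G a b).Adj t u := by
  obtain ⟨r, hr, w, hw⟩ := h
  cases hw' : w.reverse with
  | nil =>
    exact absurd ⟨u, hr, Walk.nil, by simp⟩ h'
  | cons hadj w' =>
    have hl : w.length = w'.length + 1 := by
      rw [← Walk.length_reverse, hw', Walk.length_cons]
    exact ⟨_, ⟨r, hr, w'.reverse, by rw [Walk.length_reverse]; omega⟩, hadj.symm⟩

omit [Fintype V] in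
theorem near_of_support {r v x : V} (hr : r = a ∨ r = b) (w : (cutE G a b).Walk r v)
    (hx : x ∈ w.support) : Near G a b (w.length + 1) x :=
  ⟨r, hr, w.takeUntil x hx, Nat.lt_succ_of_le (w.length_takeUntil_le_length hx)⟩

omit [Fintype V] in
theorem near_of_support' {r v x : V} (hr : r = a ∨ r = b) (w : (cutE G a b).Walk r v)
    (hx : x ∈ w.support) (hxv : x ≠ v) : Near G a b w.length x :=
  ⟨r, hr, w.takeUntil x hx, Walk.length_takeUntil_lt_length hx hxv⟩

omit [Fintype V] [DecidableEq V] in
theorem root_walk (hab : G.Adj a b) {r r' : V} (hr : r = a ∨ r = b) (hr' : r' = a ∨ r' = b) :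
    ∃ c : G.Walk r r', c.length ≤ 1 ∧ ∀ e ∈ c.edges, e = s(a, b) := by
  rcases hr with rfl | rfl <;> rcases hr' with rfl | rfl
  · exact ⟨Walk.nil, by simp, by simp⟩
  · exact ⟨Walk.cons hab Walk.nil, by simp, by simp⟩
  · exact ⟨Walk.cons hab.symm Walk.nil, by simp, by simp [Sym2.eq_swap]⟩
  · exact ⟨Walk.nil, by simp, by simp⟩

omit [Fintype V] [DecidableEq V] in
/-- two near vertices are joined through the root edge -/
theorem join (hab : G.Adj a b) {r r' t t' : V} (hr : r = a ∨ r = b) (hr' : r' = a ∨ r' = b)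
    (w : (cutE G a b).Walk r t) (w' : (cutE G a b).Walk r' t') :
    ∃ c : G.Walk t t', c.length ≤ w.length + w'.length + 1 ∧
      ∀ e ∈ c.edges, e = s(a, b) ∨ e ∈ w.edges ∨ e ∈ w'.edges := by
  obtain ⟨c, h1, h2⟩ := root_walk hab hr hr'
  refine ⟨(w.mapLe (cutE_le G a b)).reverse.append (c.append (w'.mapLe (cutE_le G a b))), ?_, ?_⟩
  · simp only [Walk.length_append, Walk.length_reverse, Walk.mapLe, Walk.length_map]
    omega
  · intro e he
    simp only [Walk.edges_append, Walk.edges_reverse, List.mem_append, List.mem_reverse,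
      Walk.edges_mapLe_eq_edges] at he
    rcases he with he | he | he
    · exact .inr (.inl he)
    · exact .inl (h2 e he)
    · exact .inr (.inr he)

omit [Fintype V] in
theorem indep {p k : ℕ} (hab : G.Adj a b) (hg : ((2 * p + 1 : ℕ) : ℕ∞) < G.egirth) (hk : k < p)
    {t t' : V} (ht : Near G a b (k + 1) t) (ht0 : ¬ Near G a b k t)
    (ht' : Near G a b (k + 1) t') (ht0' : ¬ Near G a b k t') : ¬ (cutE G a b).Adj t t' := by
  intro h
  obtain ⟨r, hr, w, hw⟩ := ht
  obtain ⟨r', hr', w', hw'⟩ := ht'
  obtain ⟨c, h1, h2⟩ := join hab hr hr' w w'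
  have h3 := (cutE_adj G a b _ _).1 h
  refine no_walk hg h3.1.symm c (fun he => ?_) (by omega)
  rcases h2 _ he with he | he | he
  · exact h3.2 (by rw [Sym2.eq_swap]; exact he)
  · exact ht0' ((near_of_support' hr w (w.fst_mem_support_of_mem_edges he) h.ne').mono (by omega))
  · exact ht0 ((near_of_support' hr' w' (w'.snd_mem_support_of_mem_edges he) h.ne).mono (by omega))

omit [Fintype V] in
theorem parent {p j : ℕ} (hab : G.Adj a b) (hg : ((2 * p + 1 : ℕ) : ℕ∞) < G.egirth) (hj : j ≤ p)
    {s s' t : V} (hs : Near G a b j s) (hs' : Near G a b j s') (ht : ¬ Near G a b j t)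
    (h : (cutE G a b).Adj s t) (h' : (cutE G a b).Adj s' t) : s = s' := by
  by_contra hne
  obtain ⟨r, hr, w, hw⟩ := hs
  obtain ⟨r', hr', w', hw'⟩ := hs'
  obtain ⟨c, h1, h2⟩ := join hab hr hr' w w'
  have h3 := (cutE_adj G a b _ _).1 h
  have h4 := (cutE_adj G a b _ _).1 h'
  refine no_walk hg h3.1.symm (c.concat h4.1) (fun he => ?_)
    (by rw [Walk.length_concat]; omega)
  rw [Walk.edges_concat, List.concat_eq_append, List.mem_append, List.mem_singleton] at he
  rcases he with he | he
  · rcases h2 _ he with he | he | he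
    · exact h3.2 (by rw [Sym2.eq_swap]; exact he)
    · exact ht ((near_of_support hr w (w.fst_mem_support_of_mem_edges he)).mono (by omega))
    · exact ht ((near_of_support hr' w' (w'.fst_mem_support_of_mem_edges he)).mono (by omega))
  · rcases Sym2.eq_iff.1 he with ⟨h5, -⟩ | ⟨-, h5⟩
    · exact h'.ne h5.symm
    · exact hne h5

open Classical in
theorem good_aux [DecidableRel G.Adj] [DecidableRel (cutE G a b).Adj] {p d : ℕ} (hab : G.Adj a b)
    (hg : ((2 * p + 1 : ℕ) : ℕ∞) < G.egirth) (hd : G.IsRegularOfDegree (d + 1)) (m : ℕ) :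
    ∀ k, k + m = p → Good (cutE G a b) d m (univ.filter fun v => ¬ Near G a b k v)
      (univ.filter fun v => Near G a b (k + 1) v ∧ ¬ Near G a b k v) := by
  induction m with
  | zero => intro k _; trivial
  | succ m ih =>
    intro k hk
    have hkp : k < p := by omega
    refine ⟨?_, ?_, ?_, ?_, ?_⟩
    · intro v hv
      simp only [mem_filter, mem_univ, true_and] at hv ⊢
      exact hv.2
    · intro t ht t' ht'
      simp only [mem_filter, mem_univ, true_and] at ht ht'
      exact indep hab hg hkp ht.1 ht.2 ht'.1 ht'.2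
    · intro t ht
      simp only [mem_filter, mem_univ, true_and] at ht
      have hdeg : (G.neighborFinset t).card = d + 1 := hd t
      obtain ⟨s, hs, hs'⟩ : ∃ s ∈ G.neighborFinset t,
          ((univ.filter fun v => ¬ Near G a b k v).filter fun u => (cutE G a b).Adj t u)
            = (G.neighborFinset t).erase s := by
        cases k with
        | zero =>
          rcases (near_one t).1 ht.1 with rfl | rfl
          · refine ⟨b, by simpa using hab, ?_⟩
            ext u
            simp only [mem_filter, mem_univ, true_and, not_near_zero, not_false_eq_true,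
              cutE_adj, mem_erase, mem_neighborFinset, ne_eq, Sym2.congr_right]
            tauto
          · refine ⟨a, by simpa using hab.symm, ?_⟩
            ext u
            have : s(t, u) = s(a, t) ↔ u = a := by
              rw [Sym2.eq_swap (a := a), Sym2.congr_right]
            simp only [mem_filter, mem_univ, true_and, not_near_zero, not_false_eq_true,
              cutE_adj, mem_erase, mem_neighborFinset, ne_eq, this]
            tauto
        | succ k =>
          obtain ⟨s, h1, h2⟩ := ht.1.pred ht.2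
          refine ⟨s, by simpa using (cutE_le G a b h2).symm, ?_⟩
          have hta : t ≠ a := fun h => ht.2 (((near_one t).2 (.inl h)).mono (by omega))
          have htb : t ≠ b := fun h => ht.2 (((near_one t).2 (.inr h)).mono (by omega))
          have hadj : ∀ u, (cutE G a b).Adj t u ↔ G.Adj t u := by
            intro u
            rw [cutE_adj]
            refine ⟨fun h => h.1, fun h => ⟨h, fun he => ?_⟩⟩
            rcases Sym2.eq_iff.1 he with ⟨h5, -⟩ | ⟨h5, -⟩
            · exact hta h5
            · exact htb h5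
          ext u
          simp only [mem_filter, mem_univ, true_and, mem_erase, mem_neighborFinset, ne_eq]
          constructor
          · rintro ⟨h3, h4⟩
            exact ⟨fun h => h3 (h ▸ h1), (hadj u).1 h4⟩
          · rintro ⟨h3, h4⟩
            refine ⟨fun h5 => h3 ?_, (hadj u).2 h4⟩
            exact parent hab hg (by omega) h5 h1 ht.2 ((hadj u).2 h4).symm h2
      rw [hs', card_erase_of_mem hs, hdeg]
      rfl
    · intro t ht t' ht' u hu h h'
      simp only [mem_filter, mem_univ, true_and] at ht ht' hu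
      refine parent hab hg (j := k + 1) (by omega) ht.1 ht'.1 (fun hu' => ?_) h h'
      exact indep hab hg hkp ht.1 ht.2 hu' hu h
    · have := ih (k + 1) (by omega)
      convert this using 1
      · ext v
        simp only [mem_sdiff, mem_filter, mem_univ, true_and, not_and, not_not]
        constructor
        · rintro ⟨h1, h2⟩ h3
          exact h1 (h2 h3)
        · intro h
          exact ⟨fun h1 => h (h1.mono (by omega)), fun h1 => absurd h1 h⟩
      · ext u
        simp only [mem_filter, mem_univ, true_and]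
        constructor
        · rintro ⟨h1, t, ⟨h2, h3⟩, h4⟩
          exact ⟨h2.step h4, fun h5 => indep hab hg hkp h2 h3 h5 h1 h4⟩
        · rintro ⟨h1, h2⟩
          obtain ⟨t, h3, h4⟩ := h1.pred h2
          refine ⟨fun h => h2 (h.mono (by omega)), t, ⟨h3, fun h5 => h2 (h5.step h4)⟩, h4⟩

theorem good_edge [DecidableRel G.Adj] [DecidableRel (cutE G a b).Adj] {p d : ℕ}
    (hab : G.Adj a b) (hg : ((2 * p + 1 : ℕ) : ℕ∞) < G.egirth)
    (hd : G.IsRegularOfDegree (d + 1)) : Good (cutE G a b) d p univ {a, b} := by
  classical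
  have := good_aux hab hg hd p 0 (by omega)
  convert this using 1
  · ext v
    simp [not_near_zero]
  · ext v
    simp [not_near_zero, near_one]

end

end Vale.Agent.N367
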