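import Vale.Agent.N367.Tree

/-! The limit of large degree. -/

namespace Vale.Agent.N367

open Finset ComplexConjugate Filter Topology Vale.Agent.P367.Gap Vale.Agent.P367.Lim
open Vale.Agent.P367.NI

/-- global flip of a path -/
def fl {p : ℕ} (x : CP p) : CP p := (fun k => !x.1 k, fun k => !x.2 k)

theorem fl_fl {p : ℕ} (x : CP p) : fl (fl x) = x := by
  refine Prod.ext ?_ ?_ <;> funext k <;> simp [fl]

/-- the flip as a permutation -/
def flE (p : ℕ) : CP p ≃ CP p := ⟨fl, fl, fl_fl, fl_fl⟩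

theorem spin_not (b : Bool) : spin (!b) = -spin b := by
  cases b <;> simp [spin]

theorem kap_not (β : ℕ → ℝ) (p : ℕ) (a : Pth p) : kap β p (fun k => !a k) = kap β p a := by
  induction p with
  | zero => rfl
  | succ p ih =>
    have h := ih (Fin.init a)
    have h1 : Fin.init (fun k => !a k) = fun k => !(Fin.init a k) := rfl
    simp only [kap]
    rw [h1, h]
    congr 1
    unfold mix
    simp only [Bool.not_eq_eq_eq_not, Bool.not_not]

theorem wgt_fl (β : ℕ → ℝ) (p : ℕ) (x : CP p) : wgt β p (fl x) = wgt β p x := by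
  unfold wgt fl
  simp only [kap_not, Bool.not_eq_eq_eq_not, Bool.not_not]

theorem qh_fl_right (γ : ℕ → ℝ) (p : ℕ) (x y : CP p) : qh γ p x (fl y) = -qh γ p x y := by
  unfold qh fl
  rw [← sum_neg_distrib]
  refine sum_congr rfl fun k _ => ?_
  simp only [spin_not]
  ring

theorem qh_fl_left (γ : ℕ → ℝ) (p : ℕ) (x y : CP p) : qh γ p (fl x) y = -qh γ p x y := by
  unfold qh fl
  rw [← sum_neg_distrib]
  refine sum_congr rfl fun k _ => ?_
  simp only [spin_not]
  ring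

theorem qq_fl_left (γ : ℕ → ℝ) (p : ℕ) (x y : CP p) : qq γ p (fl x) y = -qq γ p x y := by
  unfold qq fl
  rw [← sum_neg_distrib]
  refine sum_congr rfl fun k _ => ?_
  simp only [spin_not]
  ring

theorem lst_fl {p : ℕ} (x : CP p) : lst (fl x) = -lst x := spin_not _

variable (F : ℂ → ℂ) (θ : ℝ) (γ β : ℕ → ℝ)

theorem gF_fl (p : ℕ) : ∀ x : CP p, gF F θ γ β p (fl x) = gF F θ γ β p x := by
  induction p with
  | zero => intro x; exact wgt_fl β 0 x
  | succ p ih =>
    intro x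
    simp only [gF]
    rw [wgt_fl]
    congr 2
    rw [← (flE p).sum_comp]
    refine sum_congr rfl fun y _ => ?_
    have h1 : ini (fl x) = fl (ini x) := rfl
    have h2 : flE p y = fl y := rfl
    rw [h1, h2, ih, qh_fl_right, qh_fl_left, neg_neg]

theorem wgt_open {p : ℕ} {x : CP p} (h : x.1 (Fin.last p) ≠ x.2 (Fin.last p)) :
    wgt β p x = 0 := by
  unfold wgt
  rw [if_neg h, mul_zero]

theorem gF_open {p : ℕ} {x : CP p} (h : x.1 (Fin.last p) ≠ x.2 (Fin.last p)) :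
    gF F θ γ β p x = 0 := by
  cases p with
  | zero => exact wgt_open β h
  | succ p => simp only [gF]; rw [wgt_open β h, zero_mul]

theorem sum_closed {p : ℕ} {x : CP p} (h : x.1 (Fin.last p) = x.2 (Fin.last p)) :
    ∑ y : CP p, gF F θ γ β p y * ek θ (qh γ p x y)
      = ∑ y : CP p, gF F θ γ β p y * ek θ (qq γ p x y) := by
  refine sum_congr rfl fun y _ => ?_
  by_cases hy : y.1 (Fin.last p) = y.2 (Fin.last p)
  · rw [qh_eq_of_closed γ p x y h hy]
  · rw [gF_open F θ γ β hy, zero_mul, zero_mul]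

theorem gF_marg (hF : F 1 = 1) (p : ℕ) : ∀ Φ : CP p → ℂ,
    ∑ y : CP (p + 1), gF F θ γ β (p + 1) y * Φ (ini y) = ∑ x : CP p, gF F θ γ β p x * Φ x := by
  have step : ∀ p : ℕ, (∀ x : CP p, wgt β p x *
      F (∑ y : CP p, gF F θ γ β p y * ek θ (qh γ p x y)) = gF F θ γ β p x) → ∀ Φ : CP p → ℂ,
      ∑ y : CP (p + 1), gF F θ γ β (p + 1) y * Φ (ini y) = ∑ x : CP p, gF F θ γ β p x * Φ x := by
    intro p h Φ
    have := sum_wgt_ini β p
      (fun x => F (∑ y : CP p, gF F θ γ β p y * ek θ (qh γ p x y)) * Φ x)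
    simp only [gF, mul_assoc]
    rw [this]
    exact sum_congr rfl fun x _ => by rw [← mul_assoc, h]
  induction p with
  | zero =>
    refine step 0 fun x => ?_
    by_cases hx : x.1 (Fin.last 0) = x.2 (Fin.last 0)
    · rw [sum_closed F θ γ β hx]
      have : ∀ y : CP 0, qq γ 0 x y = 0 := fun y => by simp [qq]
      simp only [this, ek_zero, mul_one, gF, sum_wgt_zero, hF]
    · rw [wgt_open β hx, zero_mul, gF_open F θ γ β hx]
  | succ p ih =>
    refine step (p + 1) fun x => ?_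
    by_cases hx : x.1 (Fin.last (p + 1)) = x.2 (Fin.last (p + 1))
    · rw [sum_closed F θ γ β hx]
      simp only [qq_succ]
      rw [ih fun z => ek θ (qh γ p (ini x) z)]
      rfl
    · rw [wgt_open β hx, zero_mul, gF_open F θ γ β hx]

theorem sum_gF (hF : F 1 = 1) (p : ℕ) : ∑ x : CP p, gF F θ γ β p x = 1 := by
  induction p with
  | zero => exact sum_wgt_zero β
  | succ p ih =>
    have := gF_marg F θ γ β hF p fun _ => 1
    simp only [mul_one] at this
    rw [this, ih]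

theorem ek_eq (q : ℝ) :
    ek θ q = ((Real.cos (θ * q) : ℝ) : ℂ) + Complex.I * ((Real.sin (θ * q) : ℝ) : ℂ) := by
  unfold ek
  rw [mul_comm, Complex.exp_mul_I, Complex.ofReal_cos, Complex.ofReal_sin]
  ring

theorem sum_odd {p : ℕ} (f : CP p → ℂ) (hf : ∀ x, f (fl x) = -f x) : ∑ x, f x = 0 := by
  have h : ∑ x, f x = -∑ x, f x := by
    conv_lhs => rw [← (flE p).sum_comp]
    rw [← sum_neg_distrib]
    exact sum_congr rfl fun x _ => hf x
  linear_combination (1 / 2 : ℂ) * h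

theorem S_sub_one (hF : F 1 = 1) (p : ℕ) (x : CP p) :
    ∑ y : CP p, gF F θ γ β p y * ek θ (qh γ p x y) - 1
      = ∑ y : CP p, gF F θ γ β p y * ((Real.cos (θ * qh γ p x y) - 1 : ℝ) : ℂ) := by
  have h1 := sum_gF F θ γ β hF p
  have h2 := sum_odd (fun y : CP p => gF F θ γ β p y *
      (Complex.I * ((Real.sin (θ * qh γ p x y) : ℝ) : ℂ))) (fun y => by
    rw [gF_fl, qh_fl_right, mul_neg, Real.sin_neg]
    push_cast
    ring)
  simp only [ek_eq, mul_add, sum_add_distrib, h2, add_zero]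
  rw [← h1, ← sum_sub_distrib]
  refine sum_congr rfl fun y _ => ?_
  push_cast
  ring

/-- the correlation of the two ends of an edge -/
noncomputable def corr (p : ℕ) : ℂ :=
  ∑ y : CP p, ∑ z : CP p, ((lst y * lst z : ℝ) : ℂ) * ek θ (qq γ p y z) *
    (gF F θ γ β p y * gF F θ γ β p z)

theorem corr_eq (p : ℕ) : corr F θ γ β p = ∑ y : CP p, ∑ z : CP p,
    ((lst y * lst z : ℝ) : ℂ) * (Complex.I * ((Real.sin (θ * qq γ p y z) : ℝ) : ℂ)) *
      (gF F θ γ β p y * gF F θ γ β p z) := by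
  have h2 := sum_odd (fun y : CP p => ∑ z : CP p, ((lst y * lst z : ℝ) : ℂ) *
      ((Real.cos (θ * qq γ p y z) : ℝ) : ℂ) * (gF F θ γ β p y * gF F θ γ β p z)) (fun y => by
    rw [← sum_neg_distrib]
    refine sum_congr rfl fun z _ => ?_
    rw [gF_fl, qq_fl_left, mul_neg, Real.cos_neg, lst_fl]
    push_cast
    ring)
  unfold corr
  simp only [ek_eq, mul_add, add_mul, sum_add_distrib, h2, zero_add]

theorem tendsto_sin_div {ι : Type*} {l : Filter ι} {t : ι → ℝ} (ht : Tendsto t l (𝓝[≠] 0))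
    (q : ℝ) : Tendsto (fun i => Real.sin (t i * q) / t i) l (𝓝 q) := by
  have h : HasDerivAt (fun s : ℝ => Real.sin (s * q)) q 0 := by
    have := ((hasDerivAt_id (0 : ℝ)).mul_const q).sin
    simpa using this
  have h2 := (hasDerivAt_iff_tendsto_slope_zero.1 h).comp ht
  refine h2.congr fun i => ?_
  simp [div_eq_inv_mul]

theorem tendsto_cos_div {ι : Type*} {l : Filter ι} {t : ι → ℝ} (ht : Tendsto t l (𝓝[≠] 0))
    (q : ℝ) : Tendsto (fun i => (Real.cos (t i * q) - 1) / t i ^ 2) l (𝓝 (-(q ^ 2 / 2))) := by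
  have h := ((tendsto_sin_div ht (q / 2)).pow 2).const_mul (-2)
  have e : -2 * (q / 2) ^ 2 = -(q ^ 2 / 2) := by ring
  rw [e] at h
  refine h.congr fun i => ?_
  have h1 : Real.cos (t i * q) = 1 - 2 * Real.sin (t i * (q / 2)) ^ 2 := by
    have : t i * q = 2 * (t i * (q / 2)) := by ring
    rw [this, Real.cos_two_mul, Real.cos_sq']
    ring
  rw [h1, div_pow]
  ring

section lim

variable {ι : Type*} {l : Filter ι} {Fi : ι → ℂ → ℂ} {t : ι → ℝ}

theorem tendsto_gF (ht : Tendsto t l (𝓝[≠] 0)) (h1 : ∀ i, Fi i 1 = 1)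
    (hF : ∀ (S : ι → ℂ) (c : ℂ), Tendsto (fun i => (S i - 1) / ((t i ^ 2 : ℝ) : ℂ)) l (𝓝 c) →
      Tendsto (fun i => Fi i (S i)) l (𝓝 (Complex.exp c))) (p : ℕ) :
    ∀ x : CP p, Tendsto (fun i => gF (Fi i) (t i) γ β p x) l (𝓝 (gg γ β p x)) := by
  induction p with
  | zero => intro x; exact tendsto_const_nhds
  | succ p ih =>
    intro x
    simp only [gF, gg]
    refine Tendsto.const_mul _ (hF _ _ ?_)
    have h2 : Tendsto (fun i => ∑ y : CP p, gF (Fi i) (t i) γ β p y *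
        (((Real.cos (t i * qh γ p (ini x) y) - 1) / t i ^ 2 : ℝ) : ℂ)) l
        (𝓝 (∑ y : CP p, gg γ β p y * ((-(qh γ p (ini x) y ^ 2 / 2) : ℝ) : ℂ))) :=
      tendsto_finsetSum _ fun y _ => (ih y).mul
        ((Complex.continuous_ofReal.tendsto _).comp (tendsto_cos_div ht _))
    refine (h2.congr fun i => ?_).trans (le_of_eq ?_)
    · rw [S_sub_one _ _ _ _ (h1 i), sum_div]
      refine sum_congr rfl fun y _ => ?_
      push_cast
      ring
    · congr 1
      rw [mul_sum, ← sum_neg_distrib]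
      refine sum_congr rfl fun y _ => ?_
      push_cast
      ring

theorem tendsto_corr (ht : Tendsto t l (𝓝[≠] 0)) (h1 : ∀ i, Fi i 1 = 1)
    (hF : ∀ (S : ι → ℂ) (c : ℂ), Tendsto (fun i => (S i - 1) / ((t i ^ 2 : ℝ) : ℂ)) l (𝓝 c) →
      Tendsto (fun i => Fi i (S i)) l (𝓝 (Complex.exp c))) (p : ℕ) :
    Tendsto (fun i => -(corr (Fi i) (t i) γ β p).re / (2 * t i)) l (𝓝 (enL γ β p)) := by
  have h2 : Tendsto (fun i => -(1 / 2 : ℂ) * ∑ y : CP p, ∑ z : CP p, ((lst y * lst z : ℝ) : ℂ) *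
      (Complex.I * ((Real.sin (t i * qq γ p y z) / t i : ℝ) : ℂ)) *
      (gF (Fi i) (t i) γ β p y * gF (Fi i) (t i) γ β p z)) l
      (𝓝 (-(1 / 2 : ℂ) * ∑ y : CP p, ∑ z : CP p, ((lst y * lst z : ℝ) : ℂ) *
        (Complex.I * ((qq γ p y z : ℝ) : ℂ)) * (gg γ β p y * gg γ β p z))) := by
    refine Tendsto.const_mul _ (tendsto_finsetSum _ fun y _ => tendsto_finsetSum _ fun z _ => ?_)
    exact ((((Complex.continuous_ofReal.tendsto _).comp (tendsto_sin_div ht _)).const_mul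
      _).const_mul _).mul ((tendsto_gF γ β ht h1 hF p y).mul (tendsto_gF γ β ht h1 hF p z))
  have h3 : -(1 / 2 : ℂ) * ∑ y : CP p, ∑ z : CP p, ((lst y * lst z : ℝ) : ℂ) *
        (Complex.I * ((qq γ p y z : ℝ) : ℂ)) * (gg γ β p y * gg γ β p z)
      = ((enL γ β p : ℝ) : ℂ) := by
    have h0 : ∑ y : Fin 2 → CP p, ((hk γ p (y 0) (y 1) : ℝ) : ℂ) * ∏ i, gg γ β p (y i)
        = ∑ a : CP p, ∑ b : CP p, ((hk γ p a b : ℝ) : ℂ) * (gg γ β p a * gg γ β p b) := by
      rw [← (finTwoArrowEquiv (CP p)).symm.sum_comp, Fintype.sum_prod_type]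
      refine sum_congr rfl fun a _ => sum_congr rfl fun b _ => ?_
      simp [finTwoArrowEquiv, Fin.prod_univ_two]
    rw [← enL_eq, h0]
    simp only [mul_sum]
    refine sum_congr rfl fun y _ => sum_congr rfl fun z _ => ?_
    unfold hk
    push_cast
    ring
  rw [h3] at h2
  have h4 := (Complex.continuous_re.tendsto _).comp h2
  rw [Complex.ofReal_re] at h4
  refine h4.congr fun i => ?_
  have h5 : -(1 / 2 : ℂ) * ∑ y : CP p, ∑ z : CP p, ((lst y * lst z : ℝ) : ℂ) *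
      (Complex.I * ((Real.sin (t i * qq γ p y z) / t i : ℝ) : ℂ)) *
      (gF (Fi i) (t i) γ β p y * gF (Fi i) (t i) γ β p z)
      = ((-(2 * t i)⁻¹ : ℝ) : ℂ) * corr (Fi i) (t i) γ β p := by
    rw [corr_eq]
    simp only [mul_sum]
    refine sum_congr rfl fun y _ => sum_congr rfl fun z _ => ?_
    push_cast
    ring
  simp only [Function.comp]
  rw [h5, Complex.re_ofReal_mul]
  ring

end lim

theorem tendsto_th : Tendsto (fun d : ℕ => (Real.sqrt ((d + 1 : ℕ) : ℝ))⁻¹) atTop (𝓝[≠] 0) := by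
  refine tendsto_nhdsWithin_iff.2 ⟨?_, Eventually.of_forall fun d => ?_⟩
  · exact (tendsto_inv_atTop_zero.comp (Real.tendsto_sqrt_atTop.comp
      tendsto_natCast_atTop_atTop)).comp (tendsto_add_atTop_nat 1)
  · have : 0 < (Real.sqrt ((d + 1 : ℕ) : ℝ))⁻¹ := by positivity
    exact this.ne'

/-- regular trees -/
theorem tendsto_corr_regular (p : ℕ) :
    Tendsto (fun d : ℕ => -(corr (fun S => S ^ d) (Real.sqrt ((d + 1 : ℕ) : ℝ))⁻¹ γ β p).re /
      (2 * (Real.sqrt ((d + 1 : ℕ) : ℝ))⁻¹)) atTop (𝓝 (enL γ β p)) := by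
  refine tendsto_corr γ β (Fi := fun (d : ℕ) S => S ^ d) tendsto_th (fun d => one_pow d) ?_ p
  intro S c h
  have h1 : Tendsto (fun d : ℕ => (d : ℂ) * (S d - 1)) atTop (𝓝 c) := by
    have h2 := ((Complex.continuous_ofReal.tendsto _).comp (seq_s 1)).mul h
    rw [Complex.ofReal_one, one_mul] at h2
    refine h2.congr fun d => ?_
    have h3 : (((Real.sqrt ((d + 1 : ℕ) : ℝ))⁻¹ ^ 2 : ℝ) : ℂ) ≠ 0 := by
      have : 0 < (Real.sqrt ((d + 1 : ℕ) : ℝ))⁻¹ ^ 2 := by positivity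
      exact_mod_cast this.ne'
    simp only [Function.comp]
    rw [Complex.ofReal_mul, Complex.ofReal_natCast, mul_assoc, mul_div_cancel₀ _ h3]
  have h4 := Complex.tendsto_one_add_pow_exp_of_tendsto h1
  refine h4.congr fun d => ?_
  congr 1
  ring

/-- Poisson trees -/
theorem tendsto_corr_poisson (p : ℕ) :
    Tendsto (fun d : ℝ => -(corr (fun S => Complex.exp (d * (S - 1))) (Real.sqrt d)⁻¹ γ β p).re /
      (2 * (Real.sqrt d)⁻¹)) atTop (𝓝 (enL γ β p)) := by
  refine tendsto_corr γ β (Fi := fun (d : ℝ) S => Complex.exp (d * (S - 1))) ?_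
    (fun d => by simp) ?_ p
  · refine tendsto_nhdsWithin_iff.2 ⟨tendsto_inv_atTop_zero.comp Real.tendsto_sqrt_atTop, ?_⟩
    filter_upwards [eventually_gt_atTop 0] with d hd
    have : 0 < (Real.sqrt d)⁻¹ := by positivity
    exact this.ne'
  · intro S c h
    refine (Complex.continuous_exp.tendsto _).comp (h.congr' ?_)
    filter_upwards [eventually_gt_atTop 0] with d hd
    rw [inv_pow, Real.sq_sqrt hd.le, Complex.ofReal_inv, div_inv_eq_mul, mul_comm]

end Vale.Agent.N367
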