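import Vale.Agent.N367.Defs
import Vale.Agent.N367.Limit

/-! QAOA on regular graphs of large girth. -/

namespace Vale.Agent.N367

open Finset ComplexConjugate Filter Topology Matrix Vale.Agent.P367.Gap Vale.Agent.P367.Lim
open Vale.Agent.P367.NI

variable {n : ℕ}

open Classical in
/-- indicator of an edge -/
noncomputable def ind (G : SimpleGraph (Fin n)) (e : Pair n) : ℝ :=
  if G.Adj e.1.1 e.1.2 then 1 else 0

/-- number of edges -/
noncomputable def nE (G : SimpleGraph (Fin n)) : ℝ := ∑ e : Pair n, ind G e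

/-- size of a cut -/
noncomputable def cutR (G : SimpleGraph (Fin n)) (z : Conf n) : ℝ :=
  ∑ e : Pair n, ind G e * ((1 - spin (z e.1.1) * spin (z e.1.2)) / 2)

/-- couplings of a graph -/
noncomputable def coup (G : SimpleGraph (Fin n)) (θ : ℝ) (e : Pair n) : ℝ :=
  -(Real.sqrt n * θ) * ind G e

theorem sqrt_ne (e : Pair n) : Real.sqrt n ≠ 0 := by
  have : 0 < n := lt_of_le_of_lt (Nat.zero_le _) e.1.1.2
  positivity

theorem skEnergy_coup (G : SimpleGraph (Fin n)) (θ : ℝ) (z : Conf n) :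
    skEnergy (coup G θ) z = θ * (2 * cutR G z - nE G) := by
  unfold skEnergy cutR nE coup
  rw [mul_sum, mul_sum, ← sum_sub_distrib, mul_sum]
  refine sum_congr rfl fun e _ => ?_
  have := sqrt_ne e
  field_simp
  ring

theorem cutOp_eq (G : SimpleGraph (Fin n)) :
    cutOp G = Matrix.diagonal fun s => ((cutR G s : ℝ) : ℂ) := by
  classical
  unfold cutOp cutR ind pauliZ
  ext s t
  rw [Matrix.sum_apply]
  by_cases hst : s = t
  · subst hst
    rw [Matrix.diagonal_apply_eq, Complex.ofReal_sum]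
    refine sum_congr rfl fun e _ => ?_
    split_ifs with h
    · simp only [Matrix.smul_apply, Matrix.sub_apply, Matrix.one_apply_eq,
        Matrix.diagonal_mul_diagonal, Matrix.diagonal_apply_eq, smul_eq_mul]
      push_cast
      ring
    · simp
  · rw [Matrix.diagonal_apply_ne _ hst]
    refine sum_eq_zero fun e _ => ?_
    split_ifs with h
    · simp [Matrix.diagonal_mul_diagonal, Matrix.diagonal_apply_ne _ hst, Matrix.one_apply_ne hst]
    · rfl

theorem exp_cut (G : SimpleGraph (Fin n)) (g : ℝ) (v : Conf n → ℂ) :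
    NormedSpace.exp ((-(Complex.I * (g : ℂ))) • cutOp G) *ᵥ v
      = fun s => Complex.exp (-(Complex.I * g * ((cutR G s : ℝ) : ℂ))) * v s := by
  rw [cutOp_eq, ← Matrix.diagonal_smul, Matrix.exp_diagonal]
  funext s
  rw [Matrix.mulVec_diagonal]
  congr 1
  rw [Pi.coe_exp, ← Complex.exp_eq_exp_ℂ]
  congr 1
  simp only [Pi.smul_apply, smul_eq_mul]
  ring

theorem circuit_eq (G : SimpleGraph (Fin n)) (θ : ℝ) (p : ℕ) : ∀ γ β : Fin p → ℝ,
    ∃ c : ℂ, ‖c‖ = 1 ∧
      circuit (cutOp G) p (fun k => 2 * θ * γ k) β = c • qaoaState (coup G θ) p γ β := by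
  induction p with
  | zero => intro γ β; exact ⟨1, norm_one, (one_smul _ _).symm⟩
  | succ p ih =>
    intro γ β
    obtain ⟨c, hc, h⟩ := ih (fun k => γ k.castSucc) (fun k => β k.castSucc)
    refine ⟨c * Complex.exp (-(Complex.I * ((θ * γ (Fin.last p) * nE G : ℝ) : ℂ))), ?_, ?_⟩
    · rw [norm_mul, hc, norm_exp_neg_I, one_mul]
    · rw [circuit, qaoaState, h, exp_cut, exp_cost, ← Matrix.mulVec_smul]
      congr 1
      funext s
      simp only [Pi.smul_apply, smul_eq_mul]
      rw [skEnergy_coup]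
      have : Complex.exp (-(Complex.I * ((2 * θ * γ (Fin.last p) : ℝ) : ℂ) * ((cutR G s : ℝ) : ℂ)))
          = Complex.exp (-(Complex.I * ((θ * γ (Fin.last p) * nE G : ℝ) : ℂ))) *
            Complex.exp (-(Complex.I * (γ (Fin.last p) : ℂ) *
              ((θ * (2 * cutR G s - nE G) : ℝ) : ℂ))) := by
        rw [← Complex.exp_add]
        congr 1
        push_cast
        ring
      rw [this]
      ring

theorem cutMean_eq (G : SimpleGraph (Fin n)) (p : ℕ) (γ β : Fin p → ℝ) :
    cutMean G p γ β = ∑ s, ‖circuit (cutOp G) p γ β s‖ ^ 2 * cutR G s := by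
  unfold cutMean
  have h : star (circuit (cutOp G) p γ β) ⬝ᵥ (Matrix.mulVec (cutOp G) (circuit (cutOp G) p γ β))
      = ((∑ s, ‖circuit (cutOp G) p γ β s‖ ^ 2 * cutR G s : ℝ) : ℂ) := by
    generalize circuit (cutOp G) p γ β = ψ
    rw [cutOp_eq, dotProduct]
    push_cast
    apply Finset.sum_congr rfl
    intro s _
    rw [Matrix.mulVec_diagonal]
    simp only [Pi.star_apply, RCLike.star_def]
    rw [mul_left_comm, mul_comm ((starRingEnd ℂ) _), Complex.mul_conj,
      Complex.normSq_eq_norm_sq]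
    push_cast
    ring
  rw [h, Complex.ofReal_re]

theorem cutMean_coup (G : SimpleGraph (Fin n)) {θ : ℝ} (hθ : θ ≠ 0) (p : ℕ) (γ β : Fin p → ℝ) :
    cutMean G p (fun k => 2 * θ * γ k) β = nE G / 2 + qaoaMean (coup G θ) p γ β / (2 * θ) := by
  obtain ⟨c, hc, h⟩ := circuit_eq G θ p γ β
  rw [cutMean_eq, h, qaoaMean_eq']
  have h1 := sum_state_sq (coup G θ) p γ β
  have h2 : nE G / 2 = ∑ s, ‖qaoaState (coup G θ) p γ β s‖ ^ 2 * (nE G / 2) := by
    rw [← sum_mul, h1, one_mul]
  rw [h2, sum_div, ← sum_add_distrib]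
  refine sum_congr rfl fun s _ => ?_
  rw [skEnergy_coup, Pi.smul_apply, smul_eq_mul, norm_mul, hc, one_mul]
  field_simp
  ring

theorem cutR_eq (G : SimpleGraph (Fin n)) (z : Conf n) :
    cutR G z = ({e : Pair n | G.Adj e.1.1 e.1.2 ∧ z e.1.1 ≠ z e.1.2}.ncard : ℝ) := by
  classical
  have : {e : Pair n | G.Adj e.1.1 e.1.2 ∧ z e.1.1 ≠ z e.1.2}
      = ↑(univ.filter fun e : Pair n => G.Adj e.1.1 e.1.2 ∧ z e.1.1 ≠ z e.1.2) := by
    ext e
    simp
  rw [this, Set.ncard_coe_finset, card_filter]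
  unfold cutR ind
  push_cast
  refine sum_congr rfl fun e _ => ?_
  by_cases h : G.Adj e.1.1 e.1.2
  · cases h1 : z e.1.1 <;> cases h2 : z e.1.2 <;> simp [h, spin]
  · simp [h]

theorem cutR_le (G : SimpleGraph (Fin n)) (z : Conf n) : cutR G z ≤ maxCut G := by
  rw [cutR_eq]
  unfold maxCut
  exact_mod_cast Finset.le_sup (f := fun z : Conf n =>
    {e : Pair n | G.Adj e.1.1 e.1.2 ∧ z e.1.1 ≠ z e.1.2}.ncard) (mem_univ z)

theorem exists_maxCut (G : SimpleGraph (Fin n)) : ∃ z, cutR G z = maxCut G := by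
  obtain ⟨z, -, hz⟩ := Finset.exists_mem_eq_sup univ univ_nonempty (fun z : Conf n =>
    {e : Pair n | G.Adj e.1.1 e.1.2 ∧ z e.1.1 ≠ z e.1.2}.ncard)
  exact ⟨z, by rw [cutR_eq, maxCut, hz]⟩

theorem cutMean_le (G : SimpleGraph (Fin n)) (p : ℕ) (γ β : Fin p → ℝ) :
    cutMean G p γ β ≤ maxCut G := by
  obtain ⟨c, hc, h⟩ := circuit_eq G (1 / 2) p γ β
  have e : (fun k => 2 * (1 / 2 : ℝ) * γ k) = γ := by
    funext k
    ring
  rw [e] at h
  rw [cutMean_eq, h]
  have h1 := sum_state_sq (coup G (1 / 2)) p γ β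
  calc ∑ s, ‖(c • qaoaState (coup G (1 / 2)) p γ β) s‖ ^ 2 * cutR G s
      ≤ ∑ s, ‖qaoaState (coup G (1 / 2)) p γ β s‖ ^ 2 * maxCut G := by
        refine sum_le_sum fun s _ => ?_
        rw [Pi.smul_apply, smul_eq_mul, norm_mul, hc, one_mul]
        exact mul_le_mul_of_nonneg_left (cutR_le G s) (by positivity)
    _ = maxCut G := by rw [← sum_mul, h1, one_mul]

theorem nE_eq (G : SimpleGraph (Fin n)) : nE G = (G.edgeSet.ncard : ℝ) := by
  classical
  have h : G.edgeSet = (fun e : Pair n => s(e.1.1, e.1.2)) ''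
      ↑(univ.filter fun e : Pair n => G.Adj e.1.1 e.1.2) := by
    ext e
    induction e using Sym2.ind with
    | _ i j =>
      simp only [SimpleGraph.mem_edgeSet, coe_filter, mem_univ, true_and, Set.mem_image,
        Set.mem_ofPred_eq]
      constructor
      · intro h
        rcases lt_or_gt_of_ne h.ne with h1 | h1
        · exact ⟨⟨(i, j), h1⟩, h, rfl⟩
        · exact ⟨⟨(j, i), h1⟩, h.symm, Sym2.eq_swap⟩
      · rintro ⟨e, h1, h2⟩
        rw [← SimpleGraph.mem_edgeSet, ← h2]
        exact h1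
  rw [h, Set.ncard_image_of_injective, Set.ncard_coe_finset, card_filter]
  · unfold nE ind
    push_cast
    rfl
  · intro e e' he
    rcases Sym2.eq_iff.1 he with ⟨h1, h2⟩ | ⟨h1, h2⟩
    · exact Subtype.ext (Prod.ext h1 h2)
    · have h3 := e.2
      have h4 := e'.2
      rw [h1, h2] at h3
      exact absurd h3 (not_lt.2 h4.le)

theorem en_univ (G : SimpleGraph (Fin n)) [DecidableRel G.Adj] (f : Fin n → Fin n → ℝ)
    (hf : ∀ i j, f i j = f j i) :
    en G univ f = 2 * ∑ e : Pair n, ind G e * f e.1.1 e.1.2 := by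
  have h := sum_sym (n := n) (fun i j => if G.Adj i j then f i j else 0) (fun i j => by
    simp only [G.adj_comm i j, hf i j])
  unfold en
  have h2 : ∑ e : Pair n, ind G e * f e.1.1 e.1.2
      = ∑ e : Pair n, if G.Adj e.1.1 e.1.2 then f e.1.1 e.1.2 else 0 := by
    refine sum_congr rfl fun e _ => ?_
    unfold ind
    split_ifs <;> simp
  rw [h2, ← h]
  refine sum_congr rfl fun i _ => sum_congr rfl fun j _ => ?_
  by_cases hij : i = j
  · subst hij
    simp
  · rw [if_neg hij]

theorem en_cutE {V : Type} [Fintype V] [DecidableEq V] (G : SimpleGraph V) [DecidableRel G.Adj]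
    {a b : V} [DecidableRel (cutE G a b).Adj] (hab : G.Adj a b) (f : V → V → ℝ)
    (hf : ∀ i j, f i j = f j i) : en G univ f = en (cutE G a b) univ f + 2 * f a b := by
  unfold en
  have h : ∀ i j, (if G.Adj i j then f i j else 0) = (if (cutE G a b).Adj i j then f i j else 0)
      + ((if j = b then if i = a then f a b else 0 else 0)
        + if j = a then if i = b then f a b else 0 else 0) := by
    intro i j
    have hne := hab.ne
    by_cases h1 : i = a ∧ j = b
    · obtain ⟨rfl, rfl⟩ := h1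
      simp [cutE_adj, hab, hne.symm]
    · by_cases h2 : i = b ∧ j = a
      · obtain ⟨rfl, rfl⟩ := h2
        simp [cutE_adj, hab.symm, hne, hf i j]
      · have h3 : s(i, j) ≠ s(a, b) := fun h => by
          rcases Sym2.eq_iff.1 h with h | h
          · exact h1 h
          · exact h2 h
        have h4 : (if j = b then if i = a then f a b else 0 else 0) = 0 := by
          split_ifs with h5 h6
          · exact absurd ⟨h6, h5⟩ h1
          · rfl
          · rfl
        have h5 : (if j = a then if i = b then f a b else 0 else 0) = 0 := by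
          split_ifs with h5 h6
          · exact absurd ⟨h6, h5⟩ h2
          · rfl
          · rfl
        rw [h4, h5]
        simp [cutE_adj, h3]
  simp_rw [h, sum_add_distrib]
  simp only [sum_ite_eq', mem_univ, if_true]
  ring

/-- the correlation of an edge with a tree-like neighbourhood -/
theorem edge_corr {V : Type} [Fintype V] [DecidableEq V] (G : SimpleGraph V) [DecidableRel G.Adj]
    {a b : V} (hab : G.Adj a b) {p d : ℕ} (hg : ((2 * p + 1 : ℕ) : ℕ∞) < G.egirth)
    (hd : G.IsRegularOfDegree (d + 1)) (θ : ℝ) (γ β : ℕ → ℝ) :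
    ∑ X : V → CP p, (∏ j, wgt β p (X j)) * (((lst (X a) * lst (X b) : ℝ) : ℂ) *
      ek (θ / 2) (en G univ fun i j => qq γ p (X i) (X j))) = corr (fun S => S ^ d) θ γ β p := by
  classical
  have hgood := good_edge hab hg hd
  have hne := hab.ne
  have h1 : ∀ y z : CP p, gF (fun S => S ^ d) θ γ β p y * gF (fun S => S ^ d) θ γ β p z
      = ∑ X : V → CP p, (if X a = y ∧ X b = z then 1 else 0) * ((∏ j, wgt β p (X j)) *
        ek (θ / 2) (en (cutE G a b) univ fun i j => qq γ p (X i) (X j))) := by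
    intro y z
    have h := ZZ_good (cutE G a b) θ d γ β p univ {a, b} hgood
      (fun j x => (if j = a then if x = y then 1 else 0 else 1) *
        (if j = b then if x = z then 1 else 0 else 1)) (by
        intro j hj x
        simp only [mem_insert, mem_singleton, not_or] at hj
        simp [hj.1, hj.2])
    rw [prod_pair hne] at h
    conv at h =>
      rhs
      simp only [if_true, if_neg hne, if_neg hne.symm, mul_one, one_mul, mul_ite, mul_zero,
        sum_ite_eq', mem_univ]
    unfold gD at h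
    rw [← h]
    unfold ZZ
    refine sum_congr rfl fun X _ => ?_
    have h2 : ∏ j, wgt β p (X j) * ((if j = a then if X j = y then (1 : ℂ) else 0 else 1) *
        (if j = b then if X j = z then 1 else 0 else 1))
        = (if X a = y ∧ X b = z then 1 else 0) * ∏ j, wgt β p (X j) := by
      rw [prod_mul_distrib, prod_mul_distrib, prod_ite_eq', prod_ite_eq']
      simp only [mem_univ, if_true]
      by_cases h3 : X a = y <;> by_cases h4 : X b = z <;> simp [h3, h4]
    rw [← mul_assoc, ← h2]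
  unfold corr
  simp_rw [h1, mul_sum]
  rw [sum_comm (s := (univ : Finset (CP p)))]
  rw [sum_congr rfl fun z _ => sum_comm, sum_comm]
  refine sum_congr rfl fun X _ => ?_
  rw [sum_eq_single (X b), sum_eq_single (X a)]
  · rw [en_cutE G hab _ (fun i j => qq_comm γ p _ _), ek_add, ek_two]
    simp only [and_self, if_true]
    ring
  · intro y _ hy
    simp [Ne.symm hy]
  · intro h; exact absurd (mem_univ _) h
  · intro z _ hz
    refine sum_eq_zero fun y _ => ?_
    simp [Ne.symm hz]
  · intro h; exact absurd (mem_univ _) h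

theorem mean_coup (G : SimpleGraph (Fin n)) [DecidableRel G.Adj] (θ : ℝ) (p : ℕ)
    (γ β : Fin p → ℝ) :
    ((qaoaMean (coup G θ) p γ β : ℝ) : ℂ) = ∑ e : Pair n, ((-θ * ind G e : ℝ) : ℂ) *
      ∑ X : Fin n → CP p, (∏ j, wgt (extA β) p (X j)) * (((lst (X e.1.1) * lst (X e.1.2) : ℝ) : ℂ) *
        ek (θ / 2) (en G univ fun i j => qq (extA γ) p (X i) (X j))) := by
  rw [mean_contour _ p γ β (extA γ) (extA β) (extA_apply γ) (extA_apply β)]
  simp_rw [mul_sum]
  rw [sum_comm]
  refine sum_congr rfl fun X _ => ?_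
  have h1 : Complex.exp (-(Complex.I * ((∑ e : Pair n, ((Real.sqrt n)⁻¹ *
        qq (extA γ) p (X e.1.1) (X e.1.2)) * coup G θ e : ℝ) : ℂ)))
      = ek (θ / 2) (en G univ fun i j => qq (extA γ) p (X i) (X j)) := by
    rw [en_univ G _ (fun i j => qq_comm _ p _ _), ek_two]
    unfold ek
    congr 1
    rw [← mul_neg, ← Complex.ofReal_neg]
    congr 2
    rw [mul_sum, ← sum_neg_distrib]
    refine sum_congr rfl fun e _ => ?_
    unfold coup
    have := sqrt_ne e
    field_simp
  rw [h1, Complex.ofReal_sum, sum_mul, mul_sum]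
  refine sum_congr rfl fun e _ => ?_
  have h2 : ((Real.sqrt n)⁻¹ * (lst (X e.1.1) * lst (X e.1.2))) * coup G θ e
      = (-θ * ind G e) * (lst (X e.1.1) * lst (X e.1.2)) := by
    unfold coup
    have := sqrt_ne e
    field_simp
  rw [h2]
  push_cast
  ring

theorem cutMean_regular (G : SimpleGraph (Fin n)) [DecidableRel G.Adj] {p d : ℕ}
    (hg : ((2 * p + 1 : ℕ) : ℕ∞) < G.egirth) (hd : G.IsRegularOfDegree (d + 1)) {θ : ℝ}
    (hθ : θ ≠ 0) (γ β : Fin p → ℝ) :
    cutMean G p (fun k => 2 * θ * γ k) β = nE G * (1 / 2 + θ *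
      (-(corr (fun S => S ^ d) θ (extA γ) (extA β) p).re / (2 * θ))) := by
  have h : ((qaoaMean (coup G θ) p γ β : ℝ) : ℂ)
      = ((-θ * nE G : ℝ) : ℂ) * corr (fun S => S ^ d) θ (extA γ) (extA β) p := by
    rw [mean_coup, nE, mul_sum, Complex.ofReal_sum, sum_mul]
    refine sum_congr rfl fun e _ => ?_
    by_cases h : G.Adj e.1.1 e.1.2
    · rw [edge_corr G h hg hd]
    · simp [ind, h]
  have h2 := congrArg Complex.re h
  rw [Complex.ofReal_re, Complex.re_ofReal_mul] at h2
  rw [cutMean_coup G hθ, h2]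
  field_simp

theorem vLim_eq (p : ℕ) (γ β : Fin p → ℝ) : vLim p γ β = enL (extA γ) (extA β) p :=
  tendsto_nhds_unique (tendsto_vLim p γ β)
    (qaoaValue_tendsto_enL p γ β (extA γ) (extA β) (extA_apply γ) (extA_apply β))

theorem nE_nonneg (G : SimpleGraph (Fin n)) : 0 ≤ nE G := by
  rw [nE_eq]
  positivity

/-- **Regular graphs of large girth.** -/
theorem regular (p : ℕ) (γ β : Fin p → ℝ) {η : ℝ} (hη : 0 < η) :
    ∀ᶠ D : ℕ in atTop, ∀ (n : ℕ) (G : SimpleGraph (Fin n)) [DecidableRel G.Adj],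
      G.IsRegularOfDegree D → ((2 * p + 1 : ℕ) : ℕ∞) < G.egirth →
      |cutMean G p (fun k => 2 * γ k / Real.sqrt D) β
        - G.edgeSet.ncard * (1 / 2 + vLim p γ β / Real.sqrt D)|
        ≤ G.edgeSet.ncard * (η / Real.sqrt D) := by
  have h := tendsto_corr_regular (extA γ) (extA β) p
  rw [← vLim_eq] at h
  have h1 := Metric.tendsto_nhds.1 h η hη
  obtain ⟨d₀, hd₀⟩ := eventually_atTop.1 h1
  filter_upwards [eventually_ge_atTop (d₀ + 1)] with D hD n G _ hreg hg
  obtain ⟨d, rfl⟩ : ∃ d, D = d + 1 := ⟨D - 1, by omega⟩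
  have h2 := hd₀ d (by omega)
  have hθ : 0 < (Real.sqrt ((d + 1 : ℕ) : ℝ))⁻¹ := by positivity
  have e : (fun k => 2 * γ k / Real.sqrt ((d + 1 : ℕ) : ℝ))
      = fun k => 2 * (Real.sqrt ((d + 1 : ℕ) : ℝ))⁻¹ * γ k := by
    funext k
    ring
  rw [e, cutMean_regular G hg hreg hθ.ne', ← nE_eq, ← mul_sub, abs_mul, abs_of_nonneg (nE_nonneg G)]
  refine mul_le_mul_of_nonneg_left ?_ (nE_nonneg G)
  rw [Real.dist_eq] at h2
  rw [add_sub_add_left_eq_sub, div_eq_inv_mul (vLim p γ β), ← mul_sub, abs_mul, abs_of_pos hθ,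
    div_eq_inv_mul η]
  exact mul_le_mul_of_nonneg_left h2.le hθ.le

end Vale.Agent.N367
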