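import Vale.Agent.N367.Reg
import Vale.Agent.P367.H84.V2

/-! Contour sums for coupling laws that depend on the size. -/

namespace Vale.Agent.N367

open Finset MeasureTheory Filter Topology Vale.Agent.P367.Gap Vale.Agent.P367.Lim
open Vale.Agent.P367.H84.U

/-- the generating function of the Poisson law -/
noncomputable def poi (d : ℝ) (S : ℂ) : ℂ := Complex.exp (d * (S - 1))

/-- sparse sequences of laws -/
def Adm (d θ : ℝ) (ν : ℕ → Measure ℝ) (s : ℕ → ℝ) : Prop :=
  (∀ N, IsProbabilityMeasure (ν N)) ∧ ∀ r : ℝ,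
    Tendsto (fun N : ℕ => (N : ℂ) * (cw (ν N) (s N * r) - 1)) atTop (𝓝 (d * (ek θ r - 1)))

theorem tendsto_ratio (r : ℕ) :
    Tendsto (fun N : ℕ => (N : ℂ) / ((N + r : ℕ) : ℂ)) atTop (𝓝 1) := by
  have h : Tendsto (fun N : ℕ => (N : ℝ) / ((N + r : ℕ) : ℝ)) atTop (𝓝 1) := by
    refine (tendsto_natCast_div_add_atTop (r : ℝ)).congr fun N => ?_
    push_cast
    rfl
  have h2 := (Complex.continuous_ofReal.tendsto _).comp h
  rw [Complex.ofReal_one] at h2
  refine h2.congr fun N => ?_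
  simp

theorem tendsto_shift {a : ℕ → ℂ} {c : ℂ} (h : Tendsto (fun N : ℕ => (N : ℂ) * a N) atTop (𝓝 c))
    (r : ℕ) : Tendsto (fun N : ℕ => (N : ℂ) * a (N + r)) atTop (𝓝 c) := by
  have h1 := (tendsto_ratio r).mul (h.comp (tendsto_add_atTop_nat r))
  rw [one_mul] at h1
  refine h1.congr' ?_
  filter_upwards [eventually_gt_atTop 0] with N hN
  have : ((N + r : ℕ) : ℂ) ≠ 0 := by exact_mod_cast (by omega : N + r ≠ 0)
  simp only [Function.comp]
  field_simp

theorem Adm.shift {d θ : ℝ} {ν : ℕ → Measure ℝ} {s : ℕ → ℝ} (h : Adm d θ ν s) (r : ℕ) :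
    Adm d θ (fun N => ν (N + r)) (fun N => s (N + r)) :=
  ⟨fun N => h.1 (N + r), fun x =>
    tendsto_shift (a := fun N => cw (ν N) (s N * x) - 1) (h.2 x) r⟩

/-- convergence of all marginals -/
def LS (d θ : ℝ) (γ β : ℕ → ℝ) (p : ℕ) : Prop :=
  ∀ (m : ℕ) (y : Fin m → CP p) (ν : ℕ → Measure ℝ) (s : ℕ → ℝ), Adm d θ ν s →
    Tendsto (fun N => MN (ν N) γ β p m N (s N) y) atTop (𝓝 (∏ i, gF (poi d) θ γ β p (y i)))

variable {d θ : ℝ} {γ β : ℕ → ℝ}

theorem LS.sub {p : ℕ} (h : LS d θ γ β p) (r : ℕ) (y : Fin r → CP p) {ν : ℕ → Measure ℝ}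
    {s : ℕ → ℝ} (hs : Adm d θ ν s) :
    Tendsto (fun N => MN (ν N) γ β p r (N - r) (s N) y) atTop
      (𝓝 (∏ i, gF (poi d) θ γ β p (y i))) := by
  have h1 := h r y _ _ (hs.shift r)
  have h2 : Tendsto (fun N : ℕ => N - r) atTop atTop := tendsto_sub_atTop_nat r
  refine (h1.comp h2).congr' ?_
  filter_upwards [eventually_ge_atTop r] with N hN
  simp only [Function.comp]
  rw [Nat.sub_add_cancel hN]

/-- a binomial sum converges to an exponential -/
theorem tendsto_binom {κ : Type} [Fintype κ] (M : (N r : ℕ) → (Fin r → κ) → ℂ) (g : κ → ℂ)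
    (hM : ∀ N r y, ‖M N r y‖ ≤ 1)
    (hg : ∀ r y, Tendsto (fun N => M N r y) atTop (𝓝 (∏ i, g (y i))))
    (u : ℕ → κ → ℂ) (t : κ → ℂ)
    (hu : ∀ y, Tendsto (fun N : ℕ => (N : ℂ) * u N y) atTop (𝓝 (t y))) :
    Tendsto (fun N => ∑ r ∈ range (N + 1), (N.choose r : ℂ) *
      ∑ y : Fin r → κ, (∏ i, u N (y i)) * M N r y) atTop
      (𝓝 (Complex.exp (∑ y, g y * t y))) := by
  classical
  let a : ℕ → ℕ → ℂ := fun N r => (N.choose r : ℂ) *
        ∑ y : Fin r → κ, (∏ i, u N (y i)) * M N r y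
  have ha : ∀ N, ∑ r ∈ range (N + 1), a N r = ∑' r, a N r := by
    intro N
    rw [tsum_eq_sum (s := range (N + 1))]
    intro r hr
    have : N < r := by
      by_contra h'
      exact hr (mem_range.2 (by omega))
    simp only [a, Nat.choose_eq_zero_of_lt this, Nat.cast_zero, zero_mul]
  change Tendsto (fun N => ∑ r ∈ range (N + 1), a N r) _ _
  simp_rw [ha]
  let A : ℂ := ∑ y, g y * t y
  have hexp : Complex.exp A = ∑' r : ℕ, A ^ r / (r.factorial : ℂ) := by
    rw [Complex.exp_eq_exp_ℂ, NormedSpace.exp_eq_tsum_div]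
  change Tendsto (fun N => ∑' r, a N r) atTop (𝓝 (Complex.exp A))
  rw [hexp]
  obtain ⟨C, hC0, hC⟩ : ∃ C : ℝ, 0 ≤ C ∧ ∀ᶠ N : ℕ in atTop, ∀ y, ‖(N : ℂ) * u N y‖ ≤ C := by
    refine ⟨∑ y, (‖t y‖ + 1), sum_nonneg fun _ _ => by positivity, ?_⟩
    rw [eventually_all]
    intro y
    have h1 : ∀ᶠ N : ℕ in atTop, ‖(N : ℂ) * u N y‖ < ‖t y‖ + 1 :=
      (hu y).norm.eventually_lt_const (by linarith)
    filter_upwards [h1] with N hN
    refine hN.le.trans ?_
    exact single_le_sum (f := fun y => ‖t y‖ + 1) (fun _ _ => by positivity) (mem_univ y)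
  refine tendsto_tsum_of_dominated_convergence
    (bound := fun r : ℕ => (C * Fintype.card κ) ^ r / r.factorial)
    (Real.summable_pow_div_factorial _) ?_ ?_
  · intro r
    have h1 : Tendsto (fun N : ℕ => (N.choose r : ℂ) * ((1 : ℂ) / N) ^ r) atTop
        (𝓝 (1 / (r.factorial : ℂ))) := by
      have h2 : Tendsto (fun n : ℕ => (n : ℝ) * (1 / n)) atTop (𝓝 1) := by
        refine tendsto_const_nhds.congr' ?_
        filter_upwards [eventually_gt_atTop 0] with n hn
        have : (n : ℝ) ≠ 0 := by positivity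
        field_simp
      have h3 := ProbabilityTheory.tendsto_choose_mul_pow_atTop (k := r) h2
      rw [one_pow] at h3
      have h4 := (Complex.continuous_ofReal.tendsto _).comp h3
      refine (h4.congr fun n => ?_).trans (le_of_eq ?_)
      · simp
      · simp
    have h5 : ∀ y : Fin r → κ, Tendsto (fun N : ℕ => (∏ i, ((N : ℂ) * u N (y i)))
        * M N r y) atTop (𝓝 ((∏ i, t (y i)) * ∏ i, g (y i))) := fun y =>
      (tendsto_finsetProd _ fun i _ => hu (y i)).mul (hg r y)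
    have h6 := h1.mul (tendsto_finsetSum univ fun y _ => h5 y)
    have h7 : 1 / (r.factorial : ℂ) * ∑ y : Fin r → κ, (∏ i, t (y i)) * ∏ i, g (y i)
        = A ^ r / (r.factorial : ℂ) := by
      have : A ^ r = ∑ y : Fin r → κ, (∏ i, t (y i)) * ∏ i, g (y i) := by
        have h8 := (Finset.prod_univ_sum (fun _ : Fin r => (univ : Finset κ))
          (fun _ y => g y * t y))
        rw [Fintype.piFinset_univ, prod_const, card_univ, Fintype.card_fin] at h8
        rw [h8]
        refine sum_congr rfl fun y _ => ?_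
        rw [prod_mul_distrib, mul_comm]
      rw [this]
      ring
    rw [h7] at h6
    refine h6.congr' ?_
    filter_upwards [eventually_gt_atTop 0] with N hN
    have hN' : (N : ℂ) ≠ 0 := by exact_mod_cast hN.ne'
    simp only [a, mul_sum]
    refine sum_congr rfl fun y _ => ?_
    rw [prod_mul_distrib, prod_const, card_univ, Fintype.card_fin, one_div, inv_pow]
    field_simp
  · filter_upwards [hC, eventually_gt_atTop 0] with N hN hN0 r
    have hN' : (0 : ℝ) < N := by exact_mod_cast hN0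
    have hub : ∀ y, ‖u N y‖ ≤ C / N := by
      intro y
      rw [le_div_iff₀ hN', mul_comm]
      simpa using hN y
    simp only [a, norm_mul, Complex.norm_natCast]
    have h1 : ‖∑ y : Fin r → κ, (∏ i, u N (y i)) * M N r y‖
        ≤ (Fintype.card κ : ℝ) ^ r * (C / N) ^ r := by
      refine (norm_sum_le _ _).trans ?_
      calc ∑ y : Fin r → κ, ‖(∏ i, u N (y i)) * M N r y‖
          ≤ ∑ _y : Fin r → κ, (C / N) ^ r := by
            refine sum_le_sum fun y _ => ?_
            rw [norm_mul, norm_prod]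
            have h2 : ∏ i, ‖u N (y i)‖ ≤ (C / N) ^ r := by
              calc ∏ i, ‖u N (y i)‖ ≤ ∏ _i : Fin r, (C / N) :=
                    prod_le_prod (fun _ _ => norm_nonneg _) fun i _ => hub (y i)
                _ = (C / N) ^ r := by rw [prod_const, card_univ, Fintype.card_fin]
            calc (∏ i, ‖u N (y i)‖) * ‖M N r y‖
                ≤ (C / N) ^ r * 1 := by
                  gcongr
                  exact hM _ _ _
              _ = _ := mul_one _
        _ = _ := by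
            rw [sum_const, card_univ, Fintype.card_fun, Fintype.card_fin, nsmul_eq_mul]
            push_cast
            rfl
    have h3 : (N.choose r : ℝ) ≤ (N : ℝ) ^ r / r.factorial := Nat.choose_le_pow_div r N
    calc (N.choose r : ℝ) * ‖∑ y : Fin r → κ, (∏ i, u N (y i)) * M N r y‖
        ≤ ((N : ℝ) ^ r / r.factorial) * ((Fintype.card κ : ℝ) ^ r * (C / N) ^ r) := by
          gcongr
      _ = (C * Fintype.card κ) ^ r / r.factorial := by
          rw [mul_pow, div_pow]
          field_simp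

theorem LS.prod {p : ℕ} (h : LS d θ γ β p) {ν : ℕ → Measure ℝ} {s : ℕ → ℝ} (hs : Adm d θ ν s)
    {m : ℕ} (q : Fin m → CP p → ℝ) :
    Tendsto (fun N => FN (ν N) γ β p N (s N) (fun _ x => ∏ i, cw (ν N) (s N * q i x))) atTop
      (𝓝 (∏ i, poi d (∑ y, gF (poi d) θ γ β p y * ek θ (q i y)))) := by
  have h3 := tendsto_binom (fun N r y => MN (ν N) γ β p r (N - r) (s N) y)
    (gF (poi d) θ γ β p) (fun N r y => by
      have := hs.1 N
      exact norm_MN_le _ _ _ _ _ _ _ _) (fun r y => h.sub r y hs)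
    (fun N x => (∏ i, cw (ν N) (s N * q i x)) - 1)
    (fun x => ∑ i, (d : ℂ) * (ek θ (q i x) - 1)) (fun y =>
      tendsto_prod_sub_one univ (fun i N => cw (ν N) (s N * q i y)) _ (fun i => hs.2 (q i y)))
  have h4 : Complex.exp (∑ y, gF (poi d) θ γ β p y * ∑ i, (d : ℂ) * (ek θ (q i y) - 1))
      = ∏ i, poi d (∑ y, gF (poi d) θ γ β p y * ek θ (q i y)) := by
    have h5 := sum_gF (poi d) θ γ β (by simp [poi]) p
    generalize gF (poi d) θ γ β p = g at h5 ⊢
    unfold poi
    rw [← Complex.exp_sum]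
    congr 1
    simp_rw [mul_sum]
    rw [Finset.sum_comm]
    refine sum_congr rfl fun i _ => ?_
    rw [← h5, ← sum_sub_distrib, mul_sum]
    refine sum_congr rfl fun y _ => ?_
    rw [h5]
    ring
  rw [h4] at h3
  refine h3.congr fun N => ?_
  refine (FN_one_add (ν N) γ β p N (s N)
    (fun x => (∏ i, cw (ν N) (s N * q i x)) - 1)).symm.trans ?_
  congr 1
  funext j x
  ring

theorem LS_all (p : ℕ) : LS d θ γ β p := by
  induction p with
  | zero =>
    intro m y ν s hs
    have h : ∀ N, MN (ν N) γ β 0 m N (s N) y = ∏ i, gF (poi d) θ γ β 0 (y i) := by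
      intro N
      have := hs.1 N
      unfold MN FN GK
      have hq : ∀ X : Fin (m + N) → CP 0,
          ∏ e : Pair (m + N), kr (ν N) γ 0 (s N) (X e.1.1) (X e.1.2) = 1 := by
        intro X
        refine prod_eq_one fun e _ => ?_
        unfold kr
        have h1 : qq γ 0 (X e.1.1) (X e.1.2) = 0 := by simp [qq]
        rw [h1, mul_zero, cw_zero]
      simp_rw [hq, mul_one]
      have h4 := (Finset.prod_univ_sum (fun _ : Fin (m + N) => (univ : Finset (CP 0)))
        (fun j x => wgt β 0 x * (Fin.append (fun i x => if x = y i then (1 : ℂ) else 0)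
          (fun _ _ => (1 : ℂ)) j : CP 0 → ℂ) x))
      rw [Fintype.piFinset_univ] at h4
      rw [← h4, Fin.prod_univ_add]
      simp only [Fin.append_left, Fin.append_right, mul_one, sum_wgt_zero, prod_const_one, mul_ite,
        mul_zero, sum_ite_eq', mem_univ, if_true]
      rfl
    simp_rw [h]
    exact tendsto_const_nhds
  | succ p ih =>
    intro m y ν s hs
    have e : ∀ N, MN (ν N) γ β (p + 1) m N (s N) y = (∏ i, wgt β (p + 1) (y i)) *
        ((∏ e : Pair m, kr (ν N) γ (p + 1) (s N) (y e.1.1) (y e.1.2)) *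
        FN (ν N) γ β p N (s N) (fun _ x => ∏ i, cw (ν N) (s N * qh γ p (ini (y i)) x))) := by
      intro N
      have := hs.1 N
      exact MN_succ _ _ _ _ _ _ _ _
    simp_rw [e]
    have h3 := ih.prod hs (fun i x => qh γ p (ini (y i)) x)
    have h4 : Tendsto (fun N : ℕ => ∏ e : Pair m, kr (ν N) γ (p + 1) (s N) (y e.1.1) (y e.1.2))
        atTop (𝓝 (∏ _e : Pair m, 1)) :=
      tendsto_finsetProd _ fun e _ => tendsto_of_nat_mul (hs.2 _)
    have h5 := (h4.mul h3).const_mul (∏ i, wgt β (p + 1) (y i))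
    refine h5.trans (le_of_eq ?_)
    congr 1
    rw [prod_const_one, one_mul, ← prod_mul_distrib]
    rfl

/-- the energy for a sparse sequence of laws -/
theorem energy_sparse (p : ℕ) (γ β : Fin p → ℝ) {ν : ℕ → Measure ℝ}
    (hs : Adm d θ ν fun N => (Real.sqrt N)⁻¹) (hi : ∀ N, Integrable (fun x : ℝ => x) (ν N))
    (hd : ∀ r : ℝ, Tendsto (fun N : ℕ => (N : ℂ) * ((((Real.sqrt N)⁻¹ : ℝ) : ℂ) *
      dw (ν N) ((Real.sqrt N)⁻¹ * r))) atTop (𝓝 (-(d * θ) * ek θ r))) :
    Tendsto (fun n : ℕ => (n : ℝ)⁻¹ * ∫ J, qaoaMean J p γ β ∂(Measure.pi fun _ : Pair n => ν n))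
      atTop (𝓝 (-(d * θ / 2) * (corr (poi d) θ (extA γ) (extA β) p).re)) := by
  rw [← tendsto_add_atTop_iff_nat 2]
  set γ' := extA γ with hγ'
  set β' := extA β with hβ'
  let s : ℕ → ℝ := fun N => (Real.sqrt ((N + 2 : ℕ) : ℝ))⁻¹
  have hs2 : Adm d θ (fun N => ν (N + 2)) s := hs.shift 2
  have hkr : ∀ x y : CP p, Tendsto (fun N : ℕ => kr (ν (N + 2)) γ' p (s N) x y) atTop (𝓝 1) :=
    fun x y => tendsto_of_nat_mul (hs2.2 _)
  have hne : ∀ᶠ N : ℕ in atTop, ∀ x y : CP p, kr (ν (N + 2)) γ' p (s N) x y ≠ 0 := by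
    rw [eventually_all]
    intro x
    rw [eventually_all]
    intro y
    exact (hkr x y).eventually_ne one_ne_zero
  have hD : ∀ y : Fin 2 → CP p, Tendsto (fun N : ℕ => (((lst (y 0) * lst (y 1) : ℝ) : ℂ) *
        (((((N : ℂ) + 1) / 2) * ((s N : ℝ) : ℂ) * dw (ν (N + 2)) (s N * qq γ' p (y 0) (y 1))) /
          kr (ν (N + 2)) γ' p (s N) (y 0) (y 1))) * MN (ν (N + 2)) γ' β' p 2 N (s N) y) atTop
      (𝓝 (((-(d * θ / 2) : ℝ) : ℂ) * (((lst (y 0) * lst (y 1) : ℝ) : ℂ) *
        ek θ (qq γ' p (y 0) (y 1)) * ∏ i, gF (poi d) θ γ' β' p (y i)))) := by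
    intro y
    have a1 := tendsto_shift (hd (qq γ' p (y 0) (y 1))) 2
    have a2 : Tendsto (fun N : ℕ => ((((N : ℝ) + 1) / (2 * (N : ℝ)) : ℝ) : ℂ)) atTop
        (𝓝 (((1 / 2 : ℝ)) : ℂ)) := by
      refine (Complex.continuous_ofReal.tendsto _).comp ?_
      have h3 : Tendsto (fun N : ℕ => (1 / 2 : ℝ) + (1 / 2) * (1 / (N : ℝ))) atTop
          (𝓝 (1 / 2 + (1 / 2) * 0)) :=
        tendsto_const_nhds.add ((tendsto_one_div_atTop_nhds_zero_nat (𝕜 := ℝ)).const_mul _)
      rw [mul_zero, add_zero] at h3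
      refine h3.congr' ?_
      filter_upwards [eventually_gt_atTop 0] with N hN
      have : (N : ℝ) ≠ 0 := by positivity
      field_simp
    have a3 := ((((a2.mul a1).div (hkr (y 0) (y 1)) one_ne_zero).const_mul
      (((lst (y 0) * lst (y 1) : ℝ) : ℂ))).mul (LS_all (γ := γ') (β := β') p 2 y _ s hs2))
    refine (a3.congr' ?_).trans (le_of_eq ?_)
    · filter_upwards [eventually_gt_atTop 0] with N hN
      have : (N : ℂ) ≠ 0 := by exact_mod_cast hN.ne'
      simp only [Pi.div_apply, s]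
      congr 2
      congr 1
      push_cast
      field_simp
    · congr 1
      push_cast
      ring
  have h3 : Tendsto (fun N : ℕ => ((((N + 2 : ℕ) : ℝ)⁻¹ *
      ∫ J, qaoaMean J p γ β ∂(Measure.pi fun _ : Pair (N + 2) => ν (N + 2)) : ℝ) : ℂ)) atTop
      (𝓝 (((-(d * θ / 2) : ℝ) : ℂ) * corr (poi d) θ γ' β' p)) := by
    have h0 : corr (poi d) θ γ' β' p = ∑ y : Fin 2 → CP p, ((lst (y 0) * lst (y 1) : ℝ) : ℂ) *
        ek θ (qq γ' p (y 0) (y 1)) * ∏ i, gF (poi d) θ γ' β' p (y i) := by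
      unfold corr
      symm
      rw [← (finTwoArrowEquiv (CP p)).symm.sum_comp, Fintype.sum_prod_type]
      refine sum_congr rfl fun a _ => sum_congr rfl fun b _ => ?_
      simp [finTwoArrowEquiv, Fin.prod_univ_two]
    rw [h0, mul_sum]
    refine (tendsto_finsetSum univ fun y _ => hD y).congr' ?_
    filter_upwards [hne] with N hN
    have := hs.1 (N + 2)
    exact (mean_marg' (ν (N + 2)) (hi _) N p γ β γ' β' (extA_apply γ) (extA_apply β) hN).symm
  have h4 := (Complex.continuous_re.tendsto _).comp h3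
  rw [Complex.re_ofReal_mul] at h4
  exact h4.congr fun N => Complex.ofReal_re _

end Vale.Agent.N367
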