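import Vale.Agent.P367.Bd3.B10
import Vale.Agent.N367.Graph

/-! Contour sums on locally tree-like graphs. -/

namespace Vale.Agent.N367

open Finset ComplexConjugate Vale.Agent.P367.Gap Vale.Agent.P367.Lim

variable {V : Type} [Fintype V] [DecidableEq V]

/-- phase -/
noncomputable def ek (θ q : ℝ) : ℂ := Complex.exp (Complex.I * ((θ * q : ℝ) : ℂ))

theorem ek_add (θ q r : ℝ) : ek θ (q + r) = ek θ q * ek θ r := by
  unfold ek
  rw [← Complex.exp_add]
  congr 1
  push_cast
  ring

theorem ek_zero (θ : ℝ) : ek θ 0 = 1 := by simp [ek]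

theorem ek_two (θ q : ℝ) : ek (θ / 2) (2 * q) = ek θ q := by
  unfold ek
  congr 3
  ring

theorem ek_sum {ι : Type*} (θ : ℝ) (S : Finset ι) (f : ι → ℝ) :
    ek θ (∑ i ∈ S, f i) = ∏ i ∈ S, ek θ (f i) := by
  classical
  induction S using Finset.induction_on with
  | empty => simp [ek_zero]
  | insert i S hi ih => rw [sum_insert hi, prod_insert hi, ek_add, ih]

/-- sum over ordered adjacent pairs inside `W` -/
noncomputable def en (H : SimpleGraph V) [DecidableRel H.Adj] (W : Finset V) (f : V → V → ℝ) : ℝ :=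
  ∑ i ∈ W, ∑ j ∈ W, if H.Adj i j then f i j else 0

variable (H : SimpleGraph V) [DecidableRel H.Adj]

omit [Fintype V] in
theorem en_insert {W : Finset V} {t : V} (ht : t ∉ W) (f : V → V → ℝ) (hf : ∀ i j, f i j = f j i) :
    en H (insert t W) f = en H W f + 2 * ∑ j ∈ W, if H.Adj t j then f t j else 0 := by
  unfold en
  rw [sum_insert ht, sum_insert ht, if_neg (H.loopless.irrefl t)]
  simp_rw [sum_insert ht]
  rw [sum_add_distrib]
  have : ∑ i ∈ W, (if H.Adj i t then f i t else 0) = ∑ j ∈ W, if H.Adj t j then f t j else 0 := by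
    refine sum_congr rfl fun j _ => ?_
    simp only [H.adj_comm j t, hf j t]
  rw [this]
  ring

omit [Fintype V] [DecidableEq V] in
theorem en_congr {W : Finset V} {f g : V → V → ℝ} (h : ∀ i ∈ W, ∀ j ∈ W, f i j = g i j) :
    en H W f = en H W g := by
  unfold en
  refine sum_congr rfl fun i hi => sum_congr rfl fun j hj => ?_
  rw [h i hi j hj]

/-- the contour sum of the graph restricted to `W` -/
noncomputable def ZZ (θ : ℝ) (γ β : ℕ → ℝ) (p : ℕ) (W : Finset V) (φ : V → CP p → ℂ) : ℂ :=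
  ∑ X : V → CP p, (∏ j, wgt β p (X j) * φ j (X j)) *
    ek (θ / 2) (en H W fun i j => qq γ p (X i) (X j))

/-- splitting of the last time for one site -/
def splitO (p : ℕ) : CP p × (Bool × Bool) ≃ CP (p + 1) where
  toFun B := (Fin.snoc (α := fun _ => Bool) B.1.1 B.2.1, Fin.snoc (α := fun _ => Bool) B.1.2 B.2.2)
  invFun x := (ini x, (x.1 (Fin.last (p + 1)), x.2 (Fin.last (p + 1))))
  left_inv B := by
    refine Prod.ext ?_ ?_
    · simp only [ini, Fin.init_snoc]
    · simp only [Fin.snoc_last]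
  right_inv x := Prod.ext (Fin.snoc_init_self x.1) (Fin.snoc_init_self x.2)

theorem sum_wgt_ini (β : ℕ → ℝ) (p : ℕ) (F : CP p → ℂ) :
    ∑ y : CP (p + 1), wgt β (p + 1) y * F (ini y) = ∑ x : CP p, wgt β p x * F x := by
  rw [← (splitO p).sum_comp, Fintype.sum_prod_type]
  refine sum_congr rfl fun x _ => ?_
  have h : ∀ c, ini (splitO p (x, c)) = x := fun c => by
    simp only [splitO, Equiv.coe_fn_mk, ini, Fin.init_snoc]
  simp_rw [h]
  rw [← sum_mul]
  congr 1
  exact sum_last β p x

theorem sum_wgt (β : ℕ → ℝ) (p : ℕ) : ∑ x : CP p, wgt β p x = 1 := by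
  induction p with
  | zero => exact sum_wgt_zero β
  | succ p ih =>
    have := sum_wgt_ini β p fun _ => 1
    simp only [mul_one] at this
    rw [this, ih]

theorem sum_split {C : Type} [Fintype C] (t : V) (a w : C → ℂ) (hw : ∑ z, w z = 1)
    (R : C → (V → C) → ℂ) (hR : ∀ y X z, R y (Function.update X t z) = R y X) :
    ∑ X : V → C, a (X t) * R (X t) X = ∑ y, a y * ∑ X : V → C, w (X t) * R y X := by
  have key : ∀ F : (V → C) → ℂ, ∑ X : V → C, F X
      = ∑ z : C, ∑ Y : {j // j ≠ t} → C, F ((Equiv.piSplitAt t fun _ => C).symm (z, Y)) := by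
    intro F
    rw [← (Equiv.piSplitAt t fun _ => C).symm.sum_comp, Fintype.sum_prod_type]
  have h1 : ∀ z Y, (Equiv.piSplitAt t fun _ => C).symm (z, Y) t = z := by
    intro z Y
    simp [Equiv.piSplitAt]
  have h2 : ∀ y z z' Y, R y ((Equiv.piSplitAt t fun _ => C).symm (z, Y))
      = R y ((Equiv.piSplitAt t fun _ => C).symm (z', Y)) := by
    intro y z z' Y
    rw [← hR y _ z']
    congr 1
    funext j
    by_cases hj : j = t
    · subst hj
      rw [Function.update_self, h1]
    · rw [Function.update_of_ne hj]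
      simp [Equiv.piSplitAt, hj]
  rw [key]
  refine sum_congr rfl fun y _ => ?_
  rw [key]
  simp_rw [h1]
  rw [← mul_sum]
  congr 1
  have h3 : ∀ z, ∑ Y : {j // j ≠ t} → C, w z * R y ((Equiv.piSplitAt t fun _ => C).symm (z, Y))
      = w z * ∑ Y : {j // j ≠ t} → C, R y ((Equiv.piSplitAt t fun _ => C).symm (y, Y)) := by
    intro z
    rw [mul_sum]
    exact sum_congr rfl fun Y _ => by rw [h2 y z y]
  simp_rw [h3]
  rw [← sum_mul, hw, one_mul]

/-- removal of one vertex -/
theorem ZZ_insert (θ : ℝ) (γ β : ℕ → ℝ) (p : ℕ) {W : Finset V} {t : V} (ht : t ∉ W)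
    (φ : V → CP p → ℂ) :
    ZZ H θ γ β p (insert t W) φ = ∑ y, (wgt β p y * φ t y) * ZZ H θ γ β p W
      (fun j x => if j = t then 1 else φ j x *
        (if j ∈ W ∧ H.Adj t j then ek θ (qq γ p y x) else 1)) := by
  let R : CP p → (V → CP p) → ℂ := fun y X =>
    (∏ j ∈ univ.erase t, wgt β p (X j) * (φ j (X j) *
      (if j ∈ W ∧ H.Adj t j then ek θ (qq γ p y (X j)) else 1))) *
      ek (θ / 2) (en H W fun i j => qq γ p (X i) (X j))
  have hR : ∀ y X z, R y (Function.update X t z) = R y X := by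
    intro y X z
    simp only [R]
    congr 1
    · refine prod_congr rfl fun j hj => ?_
      rw [Function.update_of_ne (ne_of_mem_erase hj)]
    · congr 1
      refine en_congr H fun i hi j hj => ?_
      have hi' : i ≠ t := fun h => ht (h ▸ hi)
      have hj' : j ≠ t := fun h => ht (h ▸ hj)
      rw [Function.update_of_ne hi', Function.update_of_ne hj']
  have h := sum_split t (fun y => wgt β p y * φ t y) (wgt β p) (sum_wgt β p) R hR
  refine Eq.trans ?_ (h.trans ?_)
  · unfold ZZ
    refine sum_congr rfl fun X _ => ?_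
    rw [en_insert H ht _ (fun i j => qq_comm γ p _ _), ek_add, ek_two, ek_sum,
      ← mul_prod_erase univ _ (mem_univ t)]
    simp only [R]
    have h1 : ∏ j ∈ W, ek θ (if H.Adj t j then qq γ p (X t) (X j) else 0)
        = ∏ j ∈ univ.erase t, (if j ∈ W ∧ H.Adj t j then ek θ (qq γ p (X t) (X j)) else 1) := by
      have hW : W ⊆ univ.erase t := fun j hj => mem_erase.2 ⟨fun h => ht (h ▸ hj), mem_univ j⟩
      rw [← prod_subset hW]
      · refine prod_congr rfl fun j hj => ?_
        by_cases h : H.Adj t j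
        · simp [h, hj]
        · simp [h, ek_zero]
      · intro j _ hj
        simp [hj]
    rw [h1]
    simp only [prod_mul_distrib]
    ring
  · refine sum_congr rfl fun y _ => ?_
    congr 1
    unfold ZZ
    refine sum_congr rfl fun X _ => ?_
    rw [← mul_prod_erase univ _ (mem_univ t)]
    simp only [R, if_true, mul_one]
    rw [mul_assoc]
    congr 2
    refine prod_congr rfl fun j hj => ?_
    rw [if_neg (ne_of_mem_erase hj)]

/-- causality -/
theorem ZZ_succ (θ : ℝ) (γ β : ℕ → ℝ) (p : ℕ) (W : Finset V) (φ : V → CP p → ℂ) :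
    ZZ H θ γ β (p + 1) W (fun j x => φ j (ini x)) = ZZ H θ γ β p W φ := by
  unfold ZZ
  rw [← (splitC V p).symm.sum_comp, Fintype.sum_prod_type]
  refine sum_congr rfl fun X _ => ?_
  have hini : ∀ c j, ini ((splitC V p).symm (X, c) j) = X j := by
    intro c j
    simp only [splitC, Equiv.coe_fn_symm_mk, ini, Fin.init_snoc]
  simp_rw [qq_succ, hini]
  rw [← sum_mul]
  have h3 : ∑ c : V → Bool × Bool, ∏ j, wgt β (p + 1) ((splitC V p).symm (X, c) j)
      * φ j (X j) = ∏ j, wgt β p (X j) * φ j (X j) := by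
    simp_rw [prod_mul_distrib]
    rw [← sum_mul]
    congr 1
    have h4 := (Finset.prod_univ_sum (fun _ : V => (univ : Finset (Bool × Bool)))
      (fun j c => wgt β (p + 1) ((Fin.snoc (α := fun _ => Bool) (X j).1 c.1,
        Fin.snoc (α := fun _ => Bool) (X j).2 c.2) : CP (p + 1))))
    rw [Fintype.piFinset_univ] at h4
    have h5 : ∀ c : V → Bool × Bool, ∀ j, (splitC V p).symm (X, c) j
        = ((Fin.snoc (α := fun _ => Bool) (X j).1 (c j).1,
          Fin.snoc (α := fun _ => Bool) (X j).2 (c j).2) : CP (p + 1)) := fun c j => rfl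
    simp_rw [h5]
    rw [← h4]
    refine prod_congr rfl fun j _ => ?_
    exact sum_last β p (X j)
  rw [h3]
  by_cases hcl : ∀ j, (X j).1 (Fin.last p) = (X j).2 (Fin.last p)
  · congr 2
    exact en_congr H fun i _ j _ => qh_eq_of_closed γ p _ _ (hcl _) (hcl _)
  · push Not at hcl
    obtain ⟨j, hj⟩ := hcl
    have h0 : ∏ j, wgt β p (X j) * φ j (X j) = 0 := by
      refine prod_eq_zero (mem_univ j) ?_
      unfold wgt
      rw [if_neg hj]
      ring
    rw [h0]
    ring

theorem ZZ_zero (θ : ℝ) (γ β : ℕ → ℝ) (W : Finset V) (φ : V → CP 0 → ℂ) :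
    ZZ H θ γ β 0 W φ = ∏ j, ∑ x, wgt β 0 x * φ j x := by
  unfold ZZ
  have h : ∀ X : V → CP 0, ek (θ / 2) (en H W fun i j => qq γ 0 (X i) (X j)) = 1 := by
    intro X
    have : (en H W fun i j => qq γ 0 (X i) (X j)) = 0 := by simp [en, qq]
    rw [this, ek_zero]
  simp_rw [h, mul_one]
  have h4 := (Finset.prod_univ_sum (fun _ : V => (univ : Finset (CP 0)))
    (fun j x => wgt β 0 x * φ j x))
  rw [Fintype.piFinset_univ] at h4
  exact h4.symm

/-- one-site weights on a tree; `F` is the generating function of the number of children -/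
noncomputable def gF (F : ℂ → ℂ) (θ : ℝ) (γ β : ℕ → ℝ) : (p : ℕ) → CP p → ℂ
  | 0, x => wgt β 0 x
  | p + 1, x => wgt β (p + 1) x * F (∑ y : CP p, gF F θ γ β p y * ek θ (qh γ p (ini x) y))

/-- one-site weights on the tree with `d` children at each vertex -/
noncomputable def gD (θ : ℝ) (d : ℕ) (γ β : ℕ → ℝ) (p : ℕ) : CP p → ℂ :=
  gF (fun S => S ^ d) θ γ β p

theorem ZZ_level (θ : ℝ) (d : ℕ) (γ β : ℕ → ℝ) (m : ℕ) (W' U T : Finset V)
    (hU : U ⊆ W') (hTW : ∀ t ∈ T, t ∉ W') (hind : ∀ t ∈ T, ∀ t' ∈ T, ¬ H.Adj t t')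
    (hnb : ∀ t ∈ T, ∀ u ∈ W', H.Adj t u → u ∈ U)
    (hd : ∀ t ∈ T, (U.filter fun u => H.Adj t u).card = d)
    (hpar : ∀ t ∈ T, ∀ t' ∈ T, ∀ u ∈ U, H.Adj t u → H.Adj t' u → t = t')
    (ih : ∀ b : V → CP m → ℂ, (∀ j ∉ U, ∀ x, b j x = 1) →
      ZZ H θ γ β m W' b = ∏ u ∈ U, ∑ x, gD θ d γ β m x * b u x) :
    ∀ T' ⊆ T, ∀ (a : V → CP (m + 1) → ℂ) (b : V → CP m → ℂ), (∀ j ∉ T', ∀ x, a j x = 1) →
      (∀ j ∉ U, ∀ x, b j x = 1) → (∀ t ∈ T', ∀ u, H.Adj t u → ∀ x, b u x = 1) →
      ZZ H θ γ β (m + 1) (T' ∪ W') (fun j x => a j x * b j (ini x))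
        = (∏ t ∈ T', ∑ y, gD θ d γ β (m + 1) y * a t y) *
          ∏ u ∈ U.filter (fun u => ∀ t ∈ T', ¬ H.Adj t u), ∑ x, gD θ d γ β m x * b u x := by
  intro T'
  induction T' using Finset.induction_on with
  | empty =>
    intro _ a b ha hb _
    have : (fun j x => a j x * b j (ini x)) = fun j x => b j (ini x) := by
      funext j x
      rw [ha j (notMem_empty j), one_mul]
    rw [this, empty_union, ZZ_succ, ih b hb]
    simp
  | insert t T'' htT ihT =>
    intro hsub a b ha hb hb'
    have ht : t ∈ T := hsub (mem_insert_self _ _)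
    have hsub' : T'' ⊆ T := fun j hj => hsub (mem_insert_of_mem hj)
    have htW : t ∉ T'' ∪ W' := fun h => (mem_union.1 h).elim htT (hTW t ht)
    have htU : t ∉ U := fun h => hTW t ht (hU h)
    rw [insert_union, ZZ_insert H θ γ β (m + 1) htW, prod_insert htT, mul_assoc, sum_mul]
    refine sum_congr rfl fun y _ => ?_
    let a' : V → CP (m + 1) → ℂ := fun j x => if j = t then 1 else a j x
    let b' : V → CP m → ℂ := fun j x => b j x *
      (if j ∈ U ∧ H.Adj t j then ek θ (qh γ m (ini y) x) else 1)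
    have hiff : ∀ j, (j ∈ T'' ∪ W' ∧ H.Adj t j) ↔ (j ∈ U ∧ H.Adj t j) := by
      intro j
      constructor
      · rintro ⟨h1, h2⟩
        rcases mem_union.1 h1 with h1 | h1
        · exact absurd h2 (hind t ht j (hsub' h1))
        · exact ⟨hnb t ht j h1 h2, h2⟩
      · rintro ⟨h1, h2⟩
        exact ⟨mem_union_right _ (hU h1), h2⟩
    have he : (fun j x => if j = t then (1 : ℂ) else a j x * b j (ini x) *
        (if j ∈ T'' ∪ W' ∧ H.Adj t j then ek θ (qq γ (m + 1) y x) else 1))
        = fun j x => a' j x * b' j (ini x) := by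
      funext j x
      simp only [a', b']
      by_cases hj : j = t
      · subst hj
        simp [hb j htU, htU]
      · rw [if_neg hj, if_neg hj, qq_succ, mul_assoc]
        simp only [hiff j]
    rw [he, ihT hsub' a' b']
    · have h1 : ∏ s ∈ T'', ∑ y, gD θ d γ β (m + 1) y * a' s y
          = ∏ s ∈ T'', ∑ y, gD θ d γ β (m + 1) y * a s y := by
        refine prod_congr rfl fun s hs => ?_
        have : s ≠ t := fun h => htT (h ▸ hs)
        simp only [a', if_neg this]
      have h2 : U.filter (fun u => ∀ s ∈ T'', ¬ H.Adj s u)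
          = (U.filter fun u => H.Adj t u) ∪ U.filter (fun u => ∀ s ∈ insert t T'', ¬ H.Adj s u) := by
        ext u
        simp only [mem_filter, mem_union, mem_insert, forall_eq_or_imp]
        constructor
        · rintro ⟨h1, h2⟩
          by_cases h : H.Adj t u
          · exact .inl ⟨h1, h⟩
          · exact .inr ⟨h1, h, h2⟩
        · rintro (⟨h1, h2⟩ | ⟨h1, -, h2⟩)
          · exact ⟨h1, fun s hs h => htT (hpar t ht s (hsub' hs) u h1 h2 h ▸ hs)⟩
          · exact ⟨h1, h2⟩
      have h3 : Disjoint (U.filter fun u => H.Adj t u)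
          (U.filter (fun u => ∀ s ∈ insert t T'', ¬ H.Adj s u)) := by
        rw [disjoint_left]
        intro u hu hu'
        exact (mem_filter.1 hu').2 t (mem_insert_self _ _) (mem_filter.1 hu).2
      have h4 : ∏ u ∈ U.filter (fun u => H.Adj t u), ∑ x, gD θ d γ β m x * b' u x
          = (∑ x : CP m, gD θ d γ β m x * ek θ (qh γ m (ini y) x)) ^ d := by
        rw [← hd t ht, ← prod_const]
        refine prod_congr rfl fun u hu => sum_congr rfl fun x _ => ?_
        simp only [b', if_pos (mem_filter.1 hu),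
          hb' t (mem_insert_self _ _) u (mem_filter.1 hu).2, one_mul]
      have h5 : ∏ u ∈ U.filter (fun u => ∀ s ∈ insert t T'', ¬ H.Adj s u),
            ∑ x, gD θ d γ β m x * b' u x
          = ∏ u ∈ U.filter (fun u => ∀ s ∈ insert t T'', ¬ H.Adj s u),
            ∑ x, gD θ d γ β m x * b u x := by
        refine prod_congr rfl fun u hu => sum_congr rfl fun x _ => ?_
        have : ¬ (u ∈ U ∧ H.Adj t u) := fun h =>
          (mem_filter.1 hu).2 t (mem_insert_self _ _) h.2
        simp only [b', if_neg this, mul_one]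
      rw [h1, h2, prod_union h3, h4, h5, hb t htU]
      simp only [gD, gF]
      ring
    · intro j hj x
      simp only [a']
      split_ifs with h
      · rfl
      · exact ha j (fun h' => (mem_insert.1 h').elim h hj) x
    · intro j hj x
      simp only [b']
      rw [hb j hj, if_neg (fun h => hj h.1), one_mul]
    · intro s hs u hu x
      simp only [b']
      rw [hb' s (mem_insert_of_mem hs) u hu, if_neg, one_mul]
      rintro ⟨h1, h2⟩
      exact htT (hpar t ht s (hsub' hs) u h1 h2 hu ▸ hs)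

/-- On a tree-like neighbourhood the contour sum factorizes. -/
theorem ZZ_good (θ : ℝ) (d : ℕ) (γ β : ℕ → ℝ) (m : ℕ) : ∀ (W T : Finset V), Good H d m W T →
    ∀ a : V → CP m → ℂ, (∀ j ∉ T, ∀ x, a j x = 1) →
      ZZ H θ γ β m W a = ∏ t ∈ T, ∑ x, gD θ d γ β m x * a t x := by
  induction m with
  | zero =>
    intro W T _ a ha
    rw [ZZ_zero, ← prod_subset (subset_univ T)]
    · rfl
    · intro j _ hj
      simp only [ha j hj, mul_one]
      exact sum_wgt_zero β
  | succ m ih =>
    rintro W T ⟨h1, h2, h3, h4, h5⟩ a ha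
    have h := ZZ_level H θ d γ β m (W \ T) (W.filter fun u => ∃ t ∈ T, H.Adj t u) T
      (fun u hu => by
        obtain ⟨hu1, t, ht, hu2⟩ := mem_filter.1 hu
        exact mem_sdiff.2 ⟨hu1, fun hu3 => h2 t ht u hu3 hu2⟩)
      (fun t ht h => (mem_sdiff.1 h).2 ht) h2
      (fun t ht u hu h => mem_filter.2 ⟨(mem_sdiff.1 hu).1, t, ht, h⟩)
      (fun t ht => by
        rw [← h3 t ht]
        congr 1
        ext u
        simp only [mem_filter]
        exact ⟨fun h => ⟨h.1.1, h.2⟩, fun h => ⟨⟨h.1, t, ht, h.2⟩, h.2⟩⟩)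
      (fun t ht t' ht' u hu => h4 t ht t' ht' u (mem_filter.1 hu).1)
      (ih _ _ h5) T subset_rfl a (fun _ _ => 1) ha (fun _ _ _ => rfl) (fun _ _ _ _ _ => rfl)
    rw [union_sdiff_of_subset h1] at h
    simp only [mul_one] at h
    rw [h]
    have : (W.filter fun u => ∃ t ∈ T, H.Adj t u).filter (fun u => ∀ t ∈ T, ¬ H.Adj t u) = ∅ := by
      refine filter_eq_empty_iff.2 fun u hu h => ?_
      obtain ⟨-, t, ht, hu2⟩ := mem_filter.1 hu
      exact h t ht hu2
    rw [this, prod_empty, mul_one]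

end Vale.Agent.N367
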